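import Vale.Agent.P147.Three.Split

/-!
P147, at most one nonzero velocity in dimension at least three: the free lemma. A block of pieces of
the first concatenation with index of order `m` rarely meets the second one. Only pieces of index of
order `m` of the second can be met; few expected meeting pairs have rare types, and after the last
meeting of a pair of common type both concatenations start afresh and miss each other.
-/

open MeasureTheory ProbabilityTheory Filter Finset
open scoped ENNReal Topology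

namespace Vale.Agent.P147.Three

open Vale.Agent.P147.Cond Vale.Agent.P147.Speed

variable {d : ℕ} {β : Type*} {β' : Type*} (X : β → Site d) (W : β → Finset (Site d))
  (X' : β' → Site d) (W' : β' → Finset (Site d))

/-- Types of meeting pairs: the two pieces and the two sites. -/
abbrev PairTy : Type _ := ((b : β) × ↥(W b)) × ((b : β') × ↥(W' b))

/-- The pieces `i` and `j` have type `t` and meet at the two sites of `t`. -/
def First (u : Site d) (i j : ℕ) (t : PairTy W W') : Set ((ℕ → β) × (ℕ → β')) :=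
  {x | x.1 i = t.1.1 ∧ x.2 j = t.2.1 ∧
    start X x.1 i + t.1.2 = u + (start X' x.2 j + t.2.2)}

/-- Offset of the two ends of a meeting pair. -/
def endOff (t : PairTy W W') : Site d :=
  (t.1.2 : Site d) - t.2.2 + X' t.2.1 - X t.1.1

variable [MeasurableSpace β] [Countable β] [DiscreteMeasurableSpace β] [MeasurableSpace β']
  [Countable β'] [DiscreteMeasurableSpace β'] (ν : Measure β) [IsProbabilityMeasure ν]
  (ν' : Measure β') [IsProbabilityMeasure ν']

/-- An event of the first pieces and an event of the later ones multiply. -/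
theorem split_prod_le {n m : ℕ} {E : Set ((ℕ → β) × (ℕ → β'))}
    (hE : ∀ x y, (∀ i < n, y.1 i = x.1 i) → (∀ i < m, y.2 i = x.2 i) → x ∈ E → y ∈ E)
    {A : Set ((ℕ → β) × (ℕ → β'))} (hA : MeasurableSet A) :
    ((iid ν).prod (iid ν')) (E ∩ (fun x => (after n x.1, after m x.2)) ⁻¹' A) ≤
      ((iid ν).prod (iid ν')) E * ((iid ν).prod (iid ν')) A := by
  rw [Set.inter_comm, mul_comm]
  exact split_le ν ν' n m (fun x hx y hy => hE x y hy.1 hy.2 hx)
    fun x _ => ⟨A, hA, le_rfl, fun y _ hy => hy⟩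

theorem measurableSet_first (u : Site d) (i j : ℕ) (t : PairTy W W') :
    MeasurableSet (First X W X' W' u i j t) :=
  (((measurable_start X i).comp measurable_fst).prodMk
      (((measurable_pi_apply i).comp measurable_fst).prodMk
        (((measurable_start X' j).comp measurable_snd).prodMk
          ((measurable_pi_apply j).comp measurable_snd))))
    (Set.to_countable {y : Site d × β × Site d × β' | y.2.1 = t.1.1 ∧ y.2.2.2 = t.2.1 ∧
      y.1 + t.1.2 = u + (y.2.2.1 + t.2.2)}).measurableSet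

/-- Weight of a type. -/
noncomputable def tyWt (t : PairTy W W') : ℝ≥0∞ := ν {t.1.1} * ν' {t.2.1}

theorem tsum_first_le {C : ℝ≥0∞} (hL : Local ν X C) (u : Site d) (n j : ℕ) (t : PairTy W W') :
    ∑' q, ((iid ν).prod (iid ν')) (First X W X' W' u (q + n) j t) ≤
      tyWt W W' ν ν' t * (C / ((n : ℝ≥0∞) + 1)) := by
  classical
  have hloc : ∀ x, ∑' q, iid ν {s | start X s (q + n) = x} ≤ C / ((n : ℝ≥0∞) + 1) := fun x => by
    rw [ENNReal.le_div_iff_mul_le (Or.inl (by simp)) (Or.inl (by simp)), mul_comm]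
    exact hL n x
  let Ev : Set (ℕ → β') := (fun c => c j) ⁻¹' {t.2.1}
  have hEv : MeasurableSet Ev := measurable_pi_apply j (measurableSet_singleton _)
  have hEvP : iid ν' Ev = ν' {t.2.1} := by
    rw [← Measure.map_apply (measurable_pi_apply j) (measurableSet_singleton _),
      Measure.infinitePi_map_eval]
  have hsl : ∀ q c, iid ν ((fun s => (s, c)) ⁻¹' First X W X' W' u (q + n) j t) =
      Ev.indicator 1 c * (ν {t.1.1} *
        iid ν {s | start X s (q + n) = u + (start X' c j + t.2.2) - t.1.2}) := fun q c => by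
    by_cases hc : c j = t.2.1
    · rw [Set.indicator_of_mem (show c ∈ Ev from hc), Pi.one_apply, one_mul]
      have e : (fun s => (s, c)) ⁻¹' First X W X' W' u (q + n) j t =
          (fun s => start X s (q + n)) ⁻¹' {u + (start X' c j + t.2.2) - t.1.2} ∩
            (fun s : ℕ → β => s (q + n)) ⁻¹' {t.1.1} := by
        ext s
        simp [First, hc, eq_sub_iff_add_eq, and_comm]
      rw [e, (indep_start ν X (q + n)).measure_inter_preimage_eq_mul _ _
        (measurableSet_singleton _) (measurableSet_singleton _), mul_comm]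
      congr 1
      rw [← Measure.map_apply (measurable_pi_apply _) (measurableSet_singleton _),
        Measure.infinitePi_map_eval]
    · rw [Set.indicator_of_notMem (show c ∉ Ev from hc), zero_mul]
      refine le_antisymm ((measure_mono fun s hs => ?_).trans_eq measure_empty) zero_le
      exact absurd hs.2.1 hc
  calc ∑' q, ((iid ν).prod (iid ν')) (First X W X' W' u (q + n) j t)
      = ∑' q, ∫⁻ c, Ev.indicator 1 c * (ν {t.1.1} *
          iid ν {s | start X s (q + n) = u + (start X' c j + t.2.2) - t.1.2}) ∂iid ν' :=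
        tsum_congr fun q => by
          rw [Measure.prod_apply_symm (measurableSet_first X W X' W' u (q + n) j t)]
          exact lintegral_congr fun c => hsl q c
    _ = ∫⁻ c, ∑' q, Ev.indicator 1 c * (ν {t.1.1} *
          iid ν {s | start X s (q + n) = u + (start X' c j + t.2.2) - t.1.2}) ∂iid ν' :=
        (lintegral_tsum fun q => ((measurable_one.indicator hEv).mul (measurable_const.mul
          ((measurable_of_countable fun y : Site d =>
            iid ν {s | start X s (q + n) = u + (y + t.2.2) - t.1.2}).comp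
            (measurable_start X' j)))).aemeasurable).symm
    _ ≤ ∫⁻ c, Ev.indicator 1 c * (ν {t.1.1} * (C / ((n : ℝ≥0∞) + 1))) ∂iid ν' := by
        refine lintegral_mono fun c => ?_
        simp only [ENNReal.tsum_mul_left]
        exact mul_le_mul_right (mul_le_mul_right (hloc _) _) _
    _ = _ := by
        rw [lintegral_mul_const _ (measurable_one.indicator hEv), lintegral_indicator_one hEv, hEvP,
          tyWt]
        ring

omit [IsProbabilityMeasure ν] [IsProbabilityMeasure ν'] in
theorem tsum_tyWt (hW : ∫⁻ b, ((W b).card : ℝ≥0∞) ∂ν ≠ ⊤)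
    (hW' : ∫⁻ b, ((W' b).card : ℝ≥0∞) ∂ν' ≠ ⊤) : ∑' t, tyWt W W' ν ν' t ≠ ⊤ := by
  simp only [tyWt]
  rw [ENNReal.tsum_prod']
  simp only [ENNReal.tsum_mul_left, ENNReal.tsum_mul_right]
  rw [lintegral_countable'] at hW hW'
  rw [ENNReal.tsum_sigma' (fun p : (b : β) × ↥(W b) => ν {p.1}),
    ENNReal.tsum_sigma' (fun p : (b : β') × ↥(W' b) => ν' {p.1})]
  exact ENNReal.mul_ne_top (by simpa [mul_comm] using hW) (by simpa [mul_comm] using hW')

variable (h : Site d →+ ℤ)

/-- A block of pieces with index of order `m` rarely meets the second concatenation. -/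
theorem free (hB : Behind ν X W h) (hA : Ahead ν' X' W' h)
    (hW : ∫⁻ b, ((W b).card : ℝ≥0∞) ∂ν ≠ ⊤) (hW' : ∫⁻ b, ((W' b).card : ℝ≥0∞) ∂ν' ≠ ⊤)
    {G : ℕ} (hG : Grow ν X h G) {C : ℝ≥0∞} (hC : C ≠ ⊤) (hL : Local ν X C)
    (h0 : ∀ u, Tendsto (D ν X W ν' X' W' u) atTop (𝓝 0))
    (a b A : ℕ) (ha : 0 < a) {ε : ℝ≥0∞} (hε : ε ≠ 0) :
    ∀ᶠ m : ℕ in atTop, ∀ u : Site d, |h u| ≤ ((A * m : ℕ) : ℤ) →
      ((iid ν).prod (iid ν')) (hit X W X' W' (a * m) (b * m) u) ≤ ε := by
  classical
  rcases Nat.eq_zero_or_pos b with rfl | hb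
  · refine Eventually.of_forall fun m u _ => ?_
    refine (measure_mono (t := ∅) ?_).trans (measure_empty.trans_le zero_le)
    rintro x ⟨q, -, hq, -⟩
    simp at hq
  set P2 := (iid ν).prod (iid ν')
  set K1 := A + 2 * b * G + 1 with hK1
  set K : ℝ≥0∞ := (K1 : ℝ≥0∞) * C
  have hK : K ≠ ⊤ := ENNReal.mul_ne_top (by simp) hC
  set Stot := ∑' t, tyWt W W' ν ν' t
  have hStot : Stot ≠ ⊤ := tsum_tyWt W W' ν ν' hW hW'
  have h3 : ε / 3 ≠ 0 := ENNReal.div_ne_zero.2 ⟨hε, by simp⟩
  -- rare types
  obtain ⟨F, hF⟩ : ∃ F : Finset (PairTy W W'),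
      K * ∑' t : {t // t ∉ F}, tyWt W W' ν ν' t ≤ ε / 3 := by
    have := ENNReal.Tendsto.const_mul (ENNReal.tendsto_tsum_compl_atTop_zero hStot) (Or.inr hK)
    rw [mul_zero] at this
    exact (this.eventually_le_const (pos_iff_ne_zero.2 h3)).exists
  -- common types: small averaged miss probabilities
  obtain ⟨δ, hδ0, hδ⟩ : ∃ δ : ℝ≥0∞, 0 < δ ∧ K * Stot * (2 * δ) ≤ ε / 3 := by
    have hc : K * Stot * 2 ≠ ⊤ := ENNReal.mul_ne_top (ENNReal.mul_ne_top hK hStot) (by simp)
    rcases eq_or_ne (K * Stot * 2) 0 with e | e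
    · exact ⟨1, one_pos, by rw [mul_one, e]; exact zero_le⟩
    · refine ⟨ε / 3 / (K * Stot * 2), ENNReal.div_pos h3 hc, ?_⟩
      rw [← mul_assoc, ENNReal.mul_div_cancel e hc]
  have hD1 : ∀ v n, D ν X W ν' X' W' v n ≤ 1 := fun v n => prob_le_one
  have hces : ∀ v, ∀ᶠ n : ℕ in atTop, ∑ k ∈ range n, D ν X W ν' X' W' v k ≤ δ * n := by
    intro v
    obtain ⟨N, hN⟩ := eventually_atTop.1 ((h0 v).eventually_le_const
      (pos_iff_ne_zero.2 (ENNReal.div_ne_zero.2 ⟨hδ0.ne', by simp⟩) : (0 : ℝ≥0∞) < δ / 2))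
    obtain ⟨M, hM⟩ := ENNReal.exists_nat_mul_gt (a := (δ / 2 : ℝ≥0∞)) (b := (N : ℝ≥0∞))
      (ENNReal.div_ne_zero.2 ⟨hδ0.ne', by simp⟩) (by simp)
    filter_upwards [eventually_ge_atTop (max M N)] with n hn
    rw [← sum_range_add_sum_Ico _ (le_of_max_le_right hn)]
    calc (∑ k ∈ range N, D ν X W ν' X' W' v k) + ∑ k ∈ Finset.Ico N n, D ν X W ν' X' W' v k
        ≤ (N : ℝ≥0∞) + n * (δ / 2) := by
          refine add_le_add ?_ ?_
          · refine (sum_le_card_nsmul _ _ 1 fun k _ => hD1 v k).trans ?_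
            simp
          · refine (sum_le_card_nsmul _ _ (δ / 2) fun k hk => hN k (Finset.mem_Ico.1 hk).1).trans ?_
            rw [nsmul_eq_mul, Nat.card_Ico]
            exact mul_le_mul_left (Nat.cast_le.2 (Nat.sub_le n N)) _
      _ ≤ (n : ℝ≥0∞) * (δ / 2) + n * (δ / 2) := by
          refine add_le_add ?_ le_rfl
          exact hM.le.trans (mul_le_mul_left (Nat.cast_le.2 (le_of_max_le_left hn)) _)
      _ = δ * n := by rw [← mul_add, ENNReal.add_halves, mul_comm]
  -- the first concatenation does not drop too fast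
  let Bad : ℕ → Set (ℕ → β) := fun N => {s | ∃ n, N ≤ n ∧ h (start X s n) < -((G : ℤ) * n)}
  have hBad : Tendsto (fun N => iid ν (Bad N)) atTop (𝓝 0) := by
    have hm : ∀ N, MeasurableSet (Bad N) := fun N => by
      have : Bad N = ⋃ (n : ℕ) (_ : N ≤ n),
          (fun s : ℕ → β => start X s n) ⁻¹' {y | h y < -((G : ℤ) * n)} := by
        ext s; simp [Bad]
      rw [this]
      exact .iUnion fun n => .iUnion fun _ =>
        measurable_start X n (Set.to_countable _).measurableSet
    have := tendsto_measure_iInter_atTop (μ := iid ν) (fun N => (hm N).nullMeasurableSet)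
      (fun N M hNM s ⟨n, h1, h2⟩ => ⟨n, hNM.trans h1, h2⟩) ⟨0, measure_ne_top _ _⟩
    have hnull : iid ν (⋂ N, Bad N) = 0 := by
      rw [measure_eq_zero_iff_ae_notMem]
      filter_upwards [hG] with s hs hmem
      obtain ⟨N, hN⟩ := eventually_atTop.1 hs
      obtain ⟨n, h1, h2⟩ := Set.mem_iInter.1 hmem N
      linarith [hN n h1]
    rwa [hnull] at this
  let Nice : Set ((ℕ → β) × (ℕ → β')) :=
    {x | (∀ q, h (X (x.1 q)) < 0 ∧ ∀ w ∈ W (x.1 q), h (X (x.1 q)) ≤ h w ∧ h w < 0) ∧
      ∀ q, h (X' (x.2 q)) < 0 ∧ ∀ w ∈ W' (x.2 q), h (X' (x.2 q)) < h w ∧ h w ≤ 0}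
  have hNice : P2 Niceᶜ = 0 := by
    refine mem_ae_iff.1 (?_ : ∀ᵐ x ∂P2, _ ∧ _)
    exact ((Measure.quasiMeasurePreserving_fst).ae (ae_all_iff.2 fun i =>
      (measurePreserving_eval_infinitePi (fun _ : ℕ => ν) i).quasiMeasurePreserving.ae hB)).and
      ((Measure.quasiMeasurePreserving_snd).ae (ae_all_iff.2 fun i =>
      (measurePreserving_eval_infinitePi (fun _ : ℕ => ν') i).quasiMeasurePreserving.ae hA))
  have hev1 : ∀ᶠ m : ℕ in atTop, iid ν (Bad (a * m)) ≤ ε / 3 :=
    (tendsto_id.const_mul_atTop' ha).eventually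
      (hBad.eventually_le_const (pos_iff_ne_zero.2 h3))
  have hev2 : ∀ᶠ m : ℕ in atTop, ∀ t ∈ F,
      ∑ k ∈ range (2 * (b * m)), D ν X W ν' X' W' (endOff X W X' W' t) k ≤
        δ * ((2 * (b * m) : ℕ) : ℝ≥0∞) :=
    (Filter.eventually_all_finset F).2 fun t _ =>
      (tendsto_atTop_mono (fun m => le_trans (Nat.le_mul_of_pos_left m hb) (Nat.le_mul_of_pos_left _
        two_pos)) tendsto_id).eventually (hces _)
  filter_upwards [hev1, hev2, eventually_ge_atTop 1] with m hm1 hm2 hm0 u hu
  set L := a * m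
  set M := b * m with hMdef
  set J := (A + 2 * b * G) * m + 1 with hJdef
  have hJK : (J : ℝ≥0∞) * (C / ((L : ℝ≥0∞) + 1)) ≤ K := by
    rw [← mul_div_assoc]
    refine ENNReal.div_le_of_le_mul ?_
    rw [mul_right_comm]
    refine mul_le_mul_left ?_ _
    have : J ≤ K1 * (L + 1) := by
      have h1 : (A + 2 * b * G) * m ≤ K1 * L :=
        Nat.mul_le_mul (Nat.le_succ _) (Nat.le_mul_of_pos_left m ha)
      rw [hJdef, Nat.mul_add, Nat.mul_one]
      omega
    exact_mod_cast this
  let U1 : Set ((ℕ → β) × (ℕ → β')) := Niceᶜ ∪ Prod.fst ⁻¹' Bad L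
  let U2 : Set ((ℕ → β) × (ℕ → β')) :=
    ⋃ t : {t // t ∉ F}, ⋃ j ∈ range J, ⋃ q : ℕ, First X W X' W' u (q + L) j t
  have hU1 : P2 U1 ≤ ε / 3 := by
    refine (measure_union_le _ _).trans ?_
    rw [hNice, zero_add, ← Set.prod_univ, Measure.prod_prod, measure_univ, mul_one]
    exact hm1
  have hU2 : P2 U2 ≤ ε / 3 := by
    refine le_trans ?_ hF
    rw [← ENNReal.tsum_mul_left]
    refine (measure_iUnion_le _).trans (ENNReal.tsum_le_tsum fun t => ?_)
    refine (measure_biUnion_finset_le _ _).trans ?_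
    refine (sum_le_sum fun j _ => (measure_iUnion_le _).trans
      (tsum_first_le X W X' W' ν ν' hL u L j t)).trans ?_
    rw [sum_const, card_range, nsmul_eq_mul, mul_left_comm, mul_comm K]
    exact mul_le_mul_right hJK _
  let V : ℕ → Set ((ℕ → β) × (ℕ → β')) := fun r =>
    ⋃ t ∈ F, ⋃ j ∈ range J, ⋃ i ∈ Finset.Ico L (M + r), First X W X' W' u i j t ∩
      (fun x => (after (i + 1) x.1, after (j + 1) x.2)) ⁻¹'
        miss X W X' W' (M + r - (i + 1)) (endOff X W X' W' t)
  have hcover : ∀ r < M, hit X W X' W' L M u ⊆ U1 ∪ U2 ∪ V r := by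
    rintro r hr x ⟨q, hq1, hq2, w, hw, z, ⟨p, w', hw', rfl⟩, he⟩
    by_cases h1 : x ∈ U1
    · exact Or.inl (Or.inl h1)
    simp only [U1, Set.mem_union, Set.mem_compl_iff, Set.mem_preimage, not_or, not_not] at h1
    obtain ⟨⟨hnR, hnS⟩, hnB⟩ := h1
    let meet : ℕ → ℕ → Prop := fun i j => ∃ w ∈ W (x.1 i), ∃ w' ∈ W' (x.2 j),
      start X x.1 i + w = u + (start X' x.2 j + w')
    have hbound : ∀ i j, L ≤ i → i < M + r → meet i j → j < J := by
      rintro i j hi hi' ⟨w, hw, w', hw', he⟩
      have e1 : h (start X x.1 i) + h w = h u + (h (start X' x.2 j) + h w') := by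
        rw [← map_add, ← map_add, ← map_add, he]
      have e2 : -((G : ℤ) * (i + 1 : ℕ)) ≤ h (start X x.1 (i + 1)) :=
        not_lt.1 fun hlt => hnB ⟨i + 1, by omega, hlt⟩
      rw [start_succ, map_add] at e2
      have e3 : ∀ j, h (start X' x.2 j) ≤ -(j : ℤ) := by
        intro j
        induction j with
        | zero => simp [start]
        | succ j ih =>
          rw [start_succ, map_add]
          push_cast
          linarith [(hnS j).1]
      have e4 := ((hnR i).2 w hw).1
      have e5 := ((hnS j).2 w' hw').2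
      have e6 : ((G : ℤ) * (i + 1 : ℕ)) ≤ (G : ℤ) * (2 * (b * m) : ℕ) :=
        mul_le_mul_of_nonneg_left (Nat.cast_le.2 (by omega)) (Int.natCast_nonneg _)
      have e7 := abs_le.1 hu
      have e8 : (J : ℤ) = (A * m : ℕ) + (G : ℤ) * (2 * (b * m) : ℕ) + 1 := by
        rw [hJdef]; push_cast; ring
      have := e3 j
      omega
    have hmeet : meet q p := ⟨w, hw, w', hw', he⟩
    let S := (range J).filter fun j => ∃ i ∈ Finset.Ico L (M + r), meet i j
    have hS : S.Nonempty := ⟨p, mem_filter.2 ⟨mem_range.2 (hbound q p hq1 (by omega) hmeet),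
      q, Finset.mem_Ico.2 ⟨hq1, by omega⟩, hmeet⟩⟩
    obtain ⟨hj, i, hi, w₁, hw₁, w₂, hw₂, he'⟩ := mem_filter.1 (S.max'_mem hS)
    obtain ⟨hiL, hiM⟩ := Finset.mem_Ico.1 hi
    set j := S.max' hS with hjdef
    let t : PairTy W W' := (⟨x.1 i, w₁, hw₁⟩, ⟨x.2 j, w₂, hw₂⟩)
    have hFi : x ∈ First X W X' W' u i j t := ⟨rfl, rfl, he'⟩
    by_cases ht : t ∈ F
    · refine Or.inr (Set.mem_biUnion ht (Set.mem_biUnion hj (Set.mem_biUnion hi ⟨hFi, ?_⟩)))
      rintro ⟨q', -, hq', v₁, hv₁, z, ⟨p', v₂, hv₂, rfl⟩, hev⟩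
      change start X (after (i + 1) x.1) q' + v₁ =
        endOff X W X' W' t + (start X' (after (j + 1) x.2) p' + v₂) at hev
      have hnew : meet (i + 1 + q') (j + 1 + p') := by
        refine ⟨v₁, hv₁, v₂, hv₂, ?_⟩
        rw [start_add X x.1 (i + 1) q', start_add X' x.2 (j + 1) p', start_succ X x.1 i,
          start_succ X' x.2 j, add_assoc _ _ v₁, hev]
        simp only [endOff, t]
        linear_combination (norm := abel) he'
      have hlt := hbound _ _ (by omega) (by omega) hnew
      have := S.le_max' _ (mem_filter.2 ⟨mem_range.2 hlt, _,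
        Finset.mem_Ico.2 ⟨by omega, by omega⟩, hnew⟩)
      omega
    · refine Or.inl (Or.inr (Set.mem_iUnion.2 ⟨⟨t, ht⟩, Set.mem_biUnion hj ?_⟩))
      exact Set.mem_iUnion.2 ⟨i - L, by rwa [Nat.sub_add_cancel hiL]⟩
  -- the average over the last index
  have hV : ∑ r ∈ range M, P2 (V r) ≤ (M : ℝ≥0∞) * (ε / 3) := by
    have hstep : ∀ r ∈ range M, P2 (V r) ≤ ∑ t ∈ F, ∑ j ∈ range J, ∑ i ∈ Finset.Ico L (2 * M),
        if i < M + r then P2 (First X W X' W' u i j t) *
          D ν X W ν' X' W' (endOff X W X' W' t) (M + r - (i + 1)) else 0 := by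
      intro r hr
      rw [mem_range] at hr
      refine (measure_biUnion_finset_le _ _).trans (sum_le_sum fun t _ => ?_)
      refine (measure_biUnion_finset_le _ _).trans (sum_le_sum fun j _ => ?_)
      refine (measure_biUnion_finset_le _ _).trans ?_
      refine (sum_le_sum fun i _ => split_prod_le ν ν' ?_ (measurableSet_miss X W X' W' _ _)).trans ?_
      · rintro x y hxy hxy' ⟨h1, h2, h3⟩
        have e1 : start X y.1 i = start X x.1 i :=
          sum_congr rfl fun k hk => by rw [hxy k (by rw [mem_range] at hk; omega)]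
        have e2 : start X' y.2 j = start X' x.2 j :=
          sum_congr rfl fun k hk => by rw [hxy' k (by rw [mem_range] at hk; omega)]
        exact ⟨by rw [hxy i (by omega), h1], by rw [hxy' j (by omega), h2], by rw [e1, e2, h3]⟩
      · rw [← sum_filter]
        refine sum_le_sum_of_subset fun i hi => ?_
        simp only [Finset.mem_Ico, mem_filter] at hi ⊢
        omega
    have hk : ∀ t i, ∑ r ∈ range M,
        (if i < M + r then D ν X W ν' X' W' (endOff X W X' W' t) (M + r - (i + 1)) else 0) ≤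
        ∑ k ∈ range (2 * M), D ν X W ν' X' W' (endOff X W X' W' t) k := fun t i => by
      rw [← sum_filter, ← sum_image (f := D ν X W ν' X' W' (endOff X W X' W' t))
        (g := fun r => M + r - (i + 1)) fun r hr r' hr' he => by
          simp only [coe_filter, mem_range, Set.mem_ofPred_eq] at hr hr' he
          omega]
      refine sum_le_sum_of_subset fun k hk => ?_
      simp only [mem_image, mem_filter, mem_range] at hk ⊢
      obtain ⟨r, hr, rfl⟩ := hk
      omega
    have hi' : ∀ t j, ∑ i ∈ Finset.Ico L (2 * M), P2 (First X W X' W' u i j t) ≤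
        tyWt W W' ν ν' t * (C / ((L : ℝ≥0∞) + 1)) := fun t j => by
      rw [sum_Ico_eq_sum_range]
      refine le_trans (le_trans ?_ (ENNReal.sum_le_tsum
        (f := fun q => P2 (First X W X' W' u (q + L) j t)) (range (2 * M - L))))
        (tsum_first_le X W X' W' ν ν' hL u L j t)
      exact le_of_eq (sum_congr rfl fun q _ => by rw [add_comm L q])
    calc ∑ r ∈ range M, P2 (V r)
        ≤ ∑ t ∈ F, ∑ j ∈ range J, ∑ i ∈ Finset.Ico L (2 * M), P2 (First X W X' W' u i j t) *
            ∑ r ∈ range M,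
              (if i < M + r then D ν X W ν' X' W' (endOff X W X' W' t) (M + r - (i + 1))
                else 0) := by
          refine (sum_le_sum hstep).trans (le_of_eq ?_)
          rw [sum_comm]
          refine sum_congr rfl fun t _ => ?_
          rw [sum_comm]
          refine sum_congr rfl fun j _ => ?_
          rw [sum_comm]
          refine sum_congr rfl fun i _ => ?_
          rw [mul_sum]
          exact sum_congr rfl fun r _ => by rw [mul_ite, mul_zero]
      _ ≤ ∑ t ∈ F, ∑ j ∈ range J, ∑ i ∈ Finset.Ico L (2 * M),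
            P2 (First X W X' W' u i j t) * (δ * ((2 * M : ℕ) : ℝ≥0∞)) :=
          sum_le_sum fun t ht => sum_le_sum fun j _ => sum_le_sum fun i _ =>
            mul_le_mul_right ((hk t i).trans (hm2 t ht)) _
      _ ≤ ∑ t ∈ F, tyWt W W' ν ν' t * K * (δ * ((2 * M : ℕ) : ℝ≥0∞)) := by
          refine sum_le_sum fun t _ => ?_
          simp only [← sum_mul]
          refine mul_le_mul_left ?_ _
          refine (sum_le_sum fun j _ => hi' t j).trans ?_
          rw [sum_const, card_range, nsmul_eq_mul, mul_left_comm]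
          exact mul_le_mul_right hJK _
      _ ≤ Stot * K * (δ * ((2 * M : ℕ) : ℝ≥0∞)) := by
          simp only [← sum_mul]
          exact mul_le_mul_left (mul_le_mul_left (ENNReal.sum_le_tsum _) _) _
      _ = (M : ℝ≥0∞) * (K * Stot * (2 * δ)) := by push_cast; ring
      _ ≤ _ := mul_le_mul_right hδ _
  have hMpos : (M : ℝ≥0∞) ≠ 0 := by
    simp only [ne_eq, Nat.cast_eq_zero, hMdef]
    exact Nat.mul_ne_zero hb.ne' (by omega)
  refine (ENNReal.mul_le_mul_iff_right hMpos (by simp)).1 ?_
  calc (M : ℝ≥0∞) * P2 (hit X W X' W' L M u)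
      = ∑ r ∈ range M, P2 (hit X W X' W' L M u) := by simp
    _ ≤ ∑ r ∈ range M, ((ε / 3 + ε / 3) + P2 (V r)) := sum_le_sum fun r hr =>
        (measure_mono (hcover r (mem_range.1 hr))).trans ((measure_union_le _ _).trans
          (add_le_add ((measure_union_le _ _).trans (add_le_add hU1 hU2)) le_rfl))
    _ ≤ (M : ℝ≥0∞) * (ε / 3 + ε / 3) + (M : ℝ≥0∞) * (ε / 3) := by
        rw [sum_add_distrib, sum_const, card_range, nsmul_eq_mul]
        exact add_le_add le_rfl hV
    _ = (M : ℝ≥0∞) * ε := by rw [← mul_add, ENNReal.add_thirds]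

end Vale.Agent.P147.Three
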