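import Vale.Agent.P147.Three.Defs
import Vale.Agent.P147.Speed.Conc

/-!
P147, at most one nonzero velocity in dimension at least three: the local bound. With two coins the
tail sum of the point masses of the starts is at most a constant over the first index, because the
number of coins grows linearly and every level is visited at most once.
-/

open MeasureTheory ProbabilityTheory Filter Finset
open scoped ENNReal Topology

namespace Vale.Agent.P147.Three

open Vale.Agent.P147.Cond Vale.Agent.P147.Speed

section Group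

variable {G : Type*} [AddCommGroup G] {μ μ' : G → ℝ≥0∞} {p : ℝ≥0∞}

theorem tsum_cw (m K : ℕ) : ∑' j : Fin m → ℤ, cw K j = 1 := by
  induction K with
  | zero => simp [cw_zero]
  | succ K ih =>
    simp only [cw_succ]
    rw [ENNReal.tsum_mul_left, Summable.tsum_finsetSum fun _ _ => ENNReal.summable]
    simp only [fun e : Fin m → Bool => ((Equiv.subRight (bit e)).tsum_eq (cw K)).trans ih,
      show ∀ j e : Fin m → ℤ, j - e = Equiv.subRight e j from fun _ _ => rfl]
    simp [← ENNReal.inv_pow, ENNReal.inv_mul_cancel]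

/-- Mass of the `n`-th remainder with `K` coins lying on the level `k` once the coins are added. -/
noncomputable def levelRest (μ' : G → ℝ≥0∞) (p : ℝ≥0∞) (h : G →+ ℤ) (w : G) (n K : ℕ) (k : ℤ) :
    ℝ≥0∞ :=
  ∑' y, if h y + (K : ℤ) * h w = k then rest μ' p n K y else 0

theorem level_addCoins {m : ℕ} (h : G →+ ℤ) (w : G) (z : Fin m → G) (hz : ∀ i, h (z i) = 0)
    (n K : ℕ) (k : ℤ) :
    ∑' x, (if h x = k then addCoins w z K (rest μ' p n K) x else 0) =
      levelRest μ' p h w n K k := by
  have e : ∀ x, (if h x = k then addCoins w z K (rest μ' p n K) x else 0) =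
      ∑' j, cw K j * (if h x = k then rest μ' p n K (x - K • w - Speed.comb z j) else 0) := fun x => by
    split_ifs <;> simp [addCoins]
  rw [tsum_congr e, ENNReal.tsum_comm]
  have e2 : ∀ j : Fin m → ℤ,
      ∑' x, (if h x = k then rest μ' p n K (x - K • w - Speed.comb z j) else 0) =
        levelRest μ' p h w n K k := fun j => by
    rw [← (Equiv.addRight (K • w + Speed.comb z j)).tsum_eq]
    refine tsum_congr fun y => ?_
    simp only [Equiv.coe_addRight]
    have h1 : h (y + (K • w + Speed.comb z j)) = h y + (K : ℤ) * h w := by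
      simp [map_add, map_nsmul, Speed.comb, map_sum, map_zsmul, hz]
    have h0 : y + (K • w + Speed.comb z j) - K • w - Speed.comb z j = y := by abel
    simp only [h1, h0]
  simp only [ENNReal.tsum_mul_left, e2]
  rw [ENNReal.tsum_mul_right, tsum_cw, one_mul]

theorem addCoins_le_level {m : ℕ} (h : G →+ ℤ) (w : G) (z : Fin m → G) (hz : ∀ i, h (z i) = 0)
    (hinj : Function.Injective (Speed.comb z)) (n K : ℕ) (x : G) :
    addCoins w z K (rest μ' p n K) x ≤ rootBd K ^ m * levelRest μ' p h w n K (h x) := by
  calc addCoins w z K (rest μ' p n K) x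
      ≤ rootBd K ^ m * ∑' j, rest μ' p n K (x - K • w - Speed.comb z j) := by
        rw [← ENNReal.tsum_mul_left]
        exact ENNReal.tsum_le_tsum fun j => mul_le_mul_of_nonneg_right (cw_le K j) zero_le
    _ ≤ _ := by
        refine mul_le_mul_right ?_ _
        refine le_trans (le_of_eq ?_) (ENNReal.tsum_comp_le_tsum_of_injective
          (f := fun j => x - K • w - Speed.comb z j) (fun a b hab => hinj (sub_right_injective hab))
          (fun y => if h y + (K : ℤ) * h w = h x then rest μ' p n K y else 0))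
        refine tsum_congr fun j => ?_
        rw [if_pos]
        simp [map_sub, map_nsmul, Speed.comb, map_sum, map_zsmul, hz]

theorem sum_half_rest (μ' : G → ℝ≥0∞) (p : ℝ≥0∞) (n : ℕ) :
    ∑' K, (2 : ℝ≥0∞)⁻¹ ^ K * ∑' x, rest μ' p n K x = ((∑' g, μ' g) + p * 2⁻¹) ^ n := by
  classical
  induction n with
  | zero =>
    rw [tsum_eq_single 0 (fun K hK => by
      obtain ⟨k, rfl⟩ := Nat.exists_eq_succ_of_ne_zero hK
      simp [rest])]
    simp [rest]
  | succ n ih =>
    rw [pow_succ, ← ih, mul_add, tsum_eq_zero_add' ENNReal.summable]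
    conv_rhs => arg 1; rw [tsum_eq_zero_add' ENNReal.summable]
    simp only [rest, ENNReal.tsum_add, tsum_tr, ENNReal.tsum_mul_left, mul_add, add_mul,
      ← ENNReal.tsum_mul_right]
    simp only [ENNReal.tsum_mul_right]
    rw [add_assoc]
    congr 1
    · rw [mul_assoc]
    · congr 1
      · rw [← ENNReal.tsum_mul_right]
        exact tsum_congr fun K => (mul_assoc _ _ _).symm
      · rw [← ENNReal.tsum_mul_right]
        exact tsum_congr fun K => by ring

end Group

theorem rootBd_sq_le (K q : ℕ) :
    rootBd K ^ 2 ≤ ((q + 1 : ℕ) : ℝ≥0∞)⁻¹ + 2 ^ q * 2⁻¹ ^ K := by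
  rcases lt_or_ge K q with hK | hK
  · refine le_add_left ((pow_le_one₀ zero_le (rootBd_le_one K)).trans ?_)
    rw [← ENNReal.inv_pow]
    obtain ⟨r, rfl⟩ := Nat.exists_eq_add_of_le hK.le
    rw [pow_add, mul_right_comm, ENNReal.mul_inv_cancel (by simp) (by simp), one_mul]
    exact one_le_pow₀ (by norm_num)
  · refine le_add_right ?_
    rw [rootBd, ← ENNReal.ofReal_pow (by positivity), inv_pow,
      Real.sq_sqrt (by positivity), ENNReal.ofReal_inv_of_pos (by positivity),
      show ((K : ℝ) + 1) = ((K + 1 : ℕ) : ℝ) by push_cast; ring, ENNReal.ofReal_natCast]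
    exact ENNReal.inv_le_inv.2 (Nat.cast_le.2 (by omega))

variable {d : ℕ} {β : Type*} [MeasurableSpace β] [Countable β] [DiscreteMeasurableSpace β]

/-- The point masses of the starts are those of the convolution powers. -/
theorem start_eq_mass (ν : Measure β) [IsProbabilityMeasure ν] (X : β → Site d) (n : ℕ)
    (x : Site d) :
    iid ν {s | start X s n = x} = mass (fun g => ν (X ⁻¹' {g})) n x := by
  induction n generalizing x with
  | zero =>
    by_cases hx : x = 0
    · simp [mass, hx, start]
    · simp [mass, hx, Ne.symm hx, start]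
  | succ n ih =>
    have hmx : ∀ g, MeasurableSet {s : ℕ → β | start X s n = g} := fun g =>
      measurable_start X n (measurableSet_singleton g)
    have hms : ∀ g, MeasurableSet {s : ℕ → β | X (s n) = g} := fun g =>
      (measurable_pi_apply n : Measurable fun s : ℕ → β => s n) (MeasurableSet.of_discrete : MeasurableSet (X ⁻¹' {g}))
    have hset : {s : ℕ → β | start X s (n + 1) = x}
        = ⋃ g, ({s | start X s n = x - g} ∩ {s | X (s n) = g}) := by
      ext s
      simp [start, Finset.sum_range_succ, eq_sub_iff_add_eq]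
    rw [hset, measure_iUnion
      (fun a b hab => Set.disjoint_left.2 fun s hs ht => hab (hs.2.symm.trans ht.2))
      (fun g => (hmx _).inter (hms g))]
    simp only [mass, tr]
    refine tsum_congr fun g => ?_
    rw [← ih, show {s : ℕ → β | start X s n = x - g} = (fun s => start X s n) ⁻¹' {x - g} from rfl,
      show {s : ℕ → β | X (s n) = g} = (fun s : ℕ → β => s n) ⁻¹' (X ⁻¹' {g}) from rfl,
      (indep_start ν X n).measure_inter_preimage_eq_mul _ _ (measurableSet_singleton _)
        MeasurableSet.of_discrete]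
    congr 1
    rw [← Measure.map_apply (measurable_pi_apply n) MeasurableSet.of_discrete,
      Measure.infinitePi_map_eval]

/-- Every level is visited at most once, so the chances of its visits add up to at most one. -/
theorem tsum_level_le (ν : Measure β) [IsProbabilityMeasure ν] (X : β → Site d) (h : Site d →+ ℤ)
    (hX : ∀ᵐ b ∂ν, h (X b) < 0) (k : ℤ) :
    ∑' n, iid ν {s | h (start X s n) = k} ≤ 1 := by
  classical
  have hm : ∀ n, MeasurableSet {s : ℕ → β | h (start X s n) = k} := fun n =>
    measurable_start X n (Set.to_countable {x | h x = k}).measurableSet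
  have hae : ∀ᵐ s ∂iid ν, ∀ i : ℕ, h (X (s i)) < 0 := ae_all_iff.2 fun i =>
    (measurePreserving_eval_infinitePi (fun _ : ℕ => ν) i).quasiMeasurePreserving.ae hX
  calc ∑' n, iid ν {s | h (start X s n) = k}
      = ∫⁻ s, ∑' n, {s : ℕ → β | h (start X s n) = k}.indicator 1 s ∂iid ν := by
        rw [lintegral_tsum fun n => (measurable_one.indicator (hm n)).aemeasurable]
        exact tsum_congr fun n => (lintegral_indicator_one (hm n)).symm
    _ ≤ ∫⁻ _, 1 ∂iid ν := by
        refine lintegral_mono_ae ?_
        filter_upwards [hae] with s hs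
        have hanti : StrictAnti fun n => h (start X s n) := strictAnti_nat_of_succ_lt fun n => by
          show h (start X s (n + 1)) < h (start X s n)
          rw [start, Finset.sum_range_succ, map_add]
          exact add_lt_of_neg_right _ (hs n)
        by_cases hex : ∃ n, h (start X s n) = k
        · obtain ⟨n, hn⟩ := hex
          rw [tsum_eq_single n fun m hmn => Set.indicator_of_notMem
            (fun hm' => hmn (hanti.injective (hm'.trans hn.symm))) _]
          exact Set.indicator_le_self' (fun _ _ => zero_le) s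
        · push Not at hex
          simp [hex]
    _ = 1 := by simp

/-- Two independent coins on flat vectors give the local bound. -/
theorem exists_local (ν : Measure β) [IsProbabilityMeasure ν] (X : β → Site d) (h : Site d →+ ℤ)
    (hX : ∀ᵐ b ∂ν, h (X b) < 0) (w : Site d) (z : Fin 2 → Site d) (hli : LinearIndependent ℤ z)
    (hz : ∀ i, h (z i) = 0)
    (hpos : ∀ eps : Fin 2 → Bool, ν {b | X b = w + ∑ i, if eps i then z i else 0} ≠ 0) :
    ∃ C : ℝ≥0∞, C ≠ ⊤ ∧ Local ν X C := by
  classical
  let μ : Site d → ℝ≥0∞ := fun g => ν (X ⁻¹' {g})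
  have hsum : ∑' g, μ g = 1 := by
    simp only [μ]
    rw [← measure_iUnion (fun a b hab => Disjoint.preimage X (by simpa using hab))
      (fun g => MeasurableSet.of_discrete), ← Set.preimage_iUnion,
      Set.iUnion_of_singleton, Set.preimage_univ, measure_univ]
  have hinj : Function.Injective (Speed.comb z) := by
    intro a b hab
    funext i
    have h0 : ∑ i, (a i - b i) • z i = 0 := by
      simpa [Speed.comb, sub_smul, Finset.sum_sub_distrib, sub_eq_zero] using hab
    exact sub_eq_zero.1 (Fintype.linearIndependent_iff.1 hli _ h0 i)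
  obtain ⟨e0, -, he0⟩ := (Finset.univ : Finset (Fin 2 → Bool)).exists_min_image
    (fun e => μ (w + corner z e)) Finset.univ_nonempty
  set p0 := μ (w + corner z e0) with hp0def
  have hinj' : Function.Injective fun e : Fin 2 → Bool => w + corner z e := by
    intro a b hab
    simp only [corner_eq] at hab
    have := hinj (add_left_cancel hab)
    funext i
    have hi := congrFun this i
    revert hi
    simp only [bit]
    cases a i <;> cases b i <;> simp
  let U : Site d → ℝ≥0∞ := fun g =>
    p0 * ∑ e : Fin 2 → Bool, if g = w + corner z e then 1 else 0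
  have hU : ∀ g, U g ≤ μ g := by
    intro g
    by_cases hg : ∃ e, g = w + corner z e
    · obtain ⟨e, rfl⟩ := hg
      simp only [U]
      rw [Finset.sum_eq_single e (fun b _ hb => by
        rw [if_neg]; exact fun hcon => hb (hinj' hcon).symm) (by simp), if_pos rfl, mul_one]
      exact he0 e (Finset.mem_univ e)
    · simp only [U]
      rw [Finset.sum_eq_zero (fun b _ => if_neg fun hcon => hg ⟨b, hcon⟩)]
      simp
  let μ' : Site d → ℝ≥0∞ := fun g => μ g - U g
  have hμ : ∀ g, μ g = μ' g + U g := fun g => (tsub_add_cancel_of_le (hU g)).symm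
  let p : ℝ≥0∞ := 2 ^ 2 * p0
  have hUs : ∑' g, U g = p := by
    simp only [U, p, ENNReal.tsum_mul_left]
    rw [Summable.tsum_finsetSum (fun _ _ => ENNReal.summable), mul_comm]
    congr 1
    simp only [tsum_ite_eq, Finset.sum_const, Finset.card_univ]
    norm_num
  have hpq : ∑' g, μ' g + p = 1 := by
    rw [← hUs, ← ENNReal.tsum_add, ← hsum]
    exact tsum_congr fun g => (hμ g).symm
  have hp0 : p ≠ 0 := mul_ne_zero (by simp) (hpos e0)
  have hpt : p ≠ ⊤ := ne_top_of_le_ne_top ENNReal.one_ne_top (hpq ▸ le_add_self)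
  set c := (∑' g, μ' g) + p * 2⁻¹ with hc
  have hc1 : c < 1 := by
    rw [← hpq]
    exact ENNReal.add_lt_add_left
      (ne_top_of_le_ne_top ENNReal.one_ne_top (hpq ▸ le_self_add))
      ((ENNReal.mul_lt_mul_iff_right hp0 hpt).2 ENNReal.one_half_lt_one |>.trans_eq (mul_one p))
  obtain ⟨J, hJ, hJ0⟩ : ∃ J : ℕ, c ^ J < 4⁻¹ ∧ 1 ≤ J :=
    (((ENNReal.tendsto_pow_atTop_nhds_zero_of_lt_one hc1).eventually_lt_const
      (by norm_num : (0 : ℝ≥0∞) < 4⁻¹)).and (eventually_ge_atTop 1)).exists
  refine ⟨J + J * (1 - c)⁻¹, ?_, fun n x => ?_⟩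
  · exact ENNReal.add_ne_top.2 ⟨by simp, ENNReal.mul_ne_top (by simp)
      (ENNReal.inv_ne_top.2 (tsub_pos_of_lt hc1).ne')⟩
  set k := h x
  let q := n / J
  let R : ℕ → ℕ → ℝ≥0∞ := fun j K => levelRest μ' p h w j K k
  have hme := mass_eq (μ := μ) (μ' := μ') (p := p) (w := w) (z := z) p0 rfl fun g => by convert hμ g
  have h1 : ∀ j, iid ν {s | start X s j = x} ≤ ∑' K, rootBd K ^ 2 * R j K := fun j => by
    rw [start_eq_mass ν X j x, hme]
    exact ENNReal.tsum_le_tsum fun K => addCoins_le_level h w z hz hinj j K x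
  have h2 : ∀ j, ∑' K, R j K = iid ν {s | h (start X s j) = k} := fun j => by
    calc ∑' K, R j K
        = ∑' K, ∑' y, if h y = k then addCoins w z K (rest μ' p j K) y else 0 :=
          tsum_congr fun K => (level_addCoins h w z hz j K k).symm
      _ = ∑' y, {y | h y = k}.indicator (fun y => iid ν {s | start X s j = y}) y := by
          rw [ENNReal.tsum_comm]
          refine tsum_congr fun y => ?_
          rw [Set.indicator_apply]
          split_ifs with hy hy' hy'
          · rw [start_eq_mass ν X j y, hme]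
          · exact absurd hy hy'
          · exact absurd hy' hy
          · simp
      _ = _ := by
          rw [← _root_.tsum_subtype]
          exact tsum_measure_preimage_singleton (Set.to_countable _) fun y _ =>
            measurable_start X j (measurableSet_singleton y)
  have h3 : ∀ j, ∑' K, (2 : ℝ≥0∞)⁻¹ ^ K * R j K ≤ c ^ j := fun j => by
    rw [hc, ← sum_half_rest μ' p j]
    refine ENNReal.tsum_le_tsum fun K => mul_le_mul_right (ENNReal.tsum_le_tsum fun y => ?_) _
    split_ifs <;> simp
  have h4 : ∑' j, ∑' K, R (j + n) K ≤ 1 := by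
    refine le_trans ?_ (tsum_level_le ν X h hX k)
    simp only [h2]
    exact ENNReal.tsum_comp_le_tsum_of_injective (f := fun j => j + n) (add_left_injective n)
      fun j => iid ν {s | h (start X s j) = k}
  have h5 : ∑' j, iid ν {s | start X s (j + n) = x} ≤
      ((q + 1 : ℕ) : ℝ≥0∞)⁻¹ + 2 ^ q * (c ^ n * (1 - c)⁻¹) := by
    calc ∑' j, iid ν {s | start X s (j + n) = x}
        ≤ ∑' j, ∑' K, (((q + 1 : ℕ) : ℝ≥0∞)⁻¹ + 2 ^ q * 2⁻¹ ^ K) * R (j + n) K :=
          ENNReal.tsum_le_tsum fun j => (h1 _).trans (ENNReal.tsum_le_tsum fun K =>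
            mul_le_mul_left (rootBd_sq_le K q) _)
      _ = ((q + 1 : ℕ) : ℝ≥0∞)⁻¹ * (∑' j, ∑' K, R (j + n) K) +
            2 ^ q * ∑' j, ∑' K, (2 : ℝ≥0∞)⁻¹ ^ K * R (j + n) K := by
          simp only [add_mul, mul_assoc, ENNReal.tsum_add, ENNReal.tsum_mul_left]
      _ ≤ _ := by
          refine add_le_add ((mul_le_mul_right h4 _).trans_eq (mul_one _)) (mul_le_mul_right ?_ _)
          refine (ENNReal.tsum_le_tsum fun j => h3 (j + n)).trans_eq ?_
          simp only [pow_add, mul_comm _ (c ^ n), ENNReal.tsum_mul_left, ENNReal.tsum_geometric]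
  have hn : ((n : ℝ≥0∞) + 1) ≤ J * ((q + 1 : ℕ) : ℝ≥0∞) := by
    have : n + 1 ≤ J * (q + 1) := Nat.lt_mul_div_succ n hJ0
    exact_mod_cast this
  have hp : (2 : ℝ≥0∞) ^ q * c ^ n ≤ 2⁻¹ ^ q := by
    calc (2 : ℝ≥0∞) ^ q * c ^ n ≤ 2 ^ q * (c ^ J) ^ q := by
          rw [← pow_mul]
          exact mul_le_mul_right (pow_le_pow_right_of_le_one' hc1.le (Nat.mul_div_le n J)) _
      _ ≤ 2 ^ q * (4⁻¹ : ℝ≥0∞) ^ q := mul_le_mul_right (pow_le_pow_left₀ zero_le hJ.le q) _
      _ = _ := by
          rw [← mul_pow, show (4 : ℝ≥0∞) = 2 * 2 by norm_num,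
            ENNReal.mul_inv (Or.inl (by norm_num)) (Or.inl (by norm_num)), ← mul_assoc,
            ENNReal.mul_inv_cancel (by norm_num) (by norm_num), one_mul]
  calc ((n : ℝ≥0∞) + 1) * ∑' j, iid ν {s | start X s (j + n) = x}
      ≤ J * ((q + 1 : ℕ) : ℝ≥0∞) * (((q + 1 : ℕ) : ℝ≥0∞)⁻¹ + 2⁻¹ ^ q * (1 - c)⁻¹) := by
        refine mul_le_mul' hn (h5.trans (add_le_add le_rfl ?_))
        rw [← mul_assoc]
        exact mul_le_mul_left hp _
    _ ≤ _ := by
        rw [mul_add, mul_assoc (J : ℝ≥0∞), ENNReal.mul_inv_cancel (by simp) (by simp), mul_one]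
        refine add_le_add le_rfl ?_
        rw [mul_assoc]
        refine mul_le_mul_right ?_ _
        rw [← mul_assoc]
        refine (mul_le_mul_left ?_ _).trans_eq (one_mul _)
        rw [← ENNReal.inv_pow, ← div_eq_mul_inv]
        refine ENNReal.div_le_of_le_mul ?_
        rw [one_mul]
        exact_mod_cast Nat.lt_two_pow_self

end Vale.Agent.P147.Three
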