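import Vale.Agent.P147.Three.Axis
import Vale.Agent.P147.Three.Local
import Vale.Agent.P147.Three.Free
import Vale.Agent.P147.Speed.Velocity

/-!
P147: in dimension at least three positive speeds in two opposite axis directions are impossible, so
there is at most one nonzero velocity.
-/

open MeasureTheory Filter Finset
open scoped ENNReal Topology

namespace Vale.Agent.P147.Three

open Vale.Agent.P147.Cond Vale.Agent.P147.Speed Vale.Agent.P147.Dir Vale.Agent.P147.Dir.Blocks
  Vale.Agent.P147.Glue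

variable {d k : ℕ} [NeZero k] (v : Fin k → Site d) (μ : Measure (Row k)) [IsProbabilityMeasure μ]

omit [NeZero k] [IsProbabilityMeasure μ] in
theorem infinite_level (hd : 3 ≤ d) (a : Fin d) {s : ℤ} (hs : s = 1 ∨ s = -1) :
    {u : Site d | hi (Pi.single a s) u = -1}.Infinite := by
  obtain ⟨j, hj⟩ : ∃ j : Fin d, j ≠ a := by
    have : Nontrivial (Fin d) := Fin.nontrivial_iff_two_le.2 (by omega)
    exact exists_ne a
  refine Set.infinite_of_injective_forall_mem
    (f := fun m : ℕ => (Pi.single j (m : ℤ) - Pi.single a s : Site d)) ?_ fun m => ?_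
  · intro m m' h
    have := congrFun h j
    simpa [Pi.single_eq_of_ne hj] using this
  · rcases hs with rfl | rfl <;> simp [hi, Pi.single_apply, hj.symm]

/-- Positive speeds in two opposite axis directions are impossible in dimension at least three. -/
theorem no_opposite_axis (hd : 3 ≤ d) (hell : ∀ i, ∀ᵐ p ∂μ, 0 < (p : Row k).1 i)
    (hunit : ∀ j, (∃ i, v i = Pi.single j 1) ∧ ∃ i, v i = Pi.single j (-1))
    (a : Fin d) {s : ℤ} (hs1 : s = 1 ∨ s = -1) (l : Fin d → ℤ) (hl : l = Pi.single a s)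
    (hp : law v μ (up v (dot fun j => (l j : ℝ))) ≠ 0)
    (hm : law v μ (up v (dot fun j => (((-l) j : ℤ) : ℝ))) ≠ 0) {c c' : ℝ} (hc : 0 < c)
    (hc' : 0 < c')
    (hsp : law v μ (up v (dot fun j => (l j : ℝ)) \
      {t | Tendsto (fun n : ℕ => dot (fun j => (l j : ℝ)) (pos v t n) / n) atTop (𝓝 c)}) = 0)
    (hsm : law v μ (up v (dot fun j => (((-l) j : ℤ) : ℝ)) \
      {t | Tendsto (fun n : ℕ => dot (fun j => (((-l) j : ℤ) : ℝ)) (pos v t n) / n) atTop
        (𝓝 c')}) = 0) : False := by
  have he : (dot fun j => (((-l) j : ℤ) : ℝ)) = -(dot fun j => (l j : ℝ)) := by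
    ext x
    simp [dot]
  have hs := stayUp_ne_zero v μ _ hp
  have hs' := stayUp_ne_zero v μ _ hm
  have := isProb_upLaw v μ _ hs
  have := isProb_upLaw v μ _ hs'
  set ν := blkLaw v μ l with hν
  set ν' := blkLaw v μ (-l) with hν'
  have : IsProbabilityMeasure ν :=
    Measure.isProbabilityMeasure_map (meas_blk0 v _).aemeasurable
  have : IsProbabilityMeasure ν' :=
    Measure.isProbabilityMeasure_map (meas_blk0 v _).aemeasurable
  have hB := behind_blocks v μ l hs
  have hA := ahead_blocks v μ l hs'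
  have hint : Integrable (fun b => (hi l (-disp v b) : ℝ)) ν := by
    refine (integrable_height v μ l hs).neg.congr (ae_of_all _ fun b => ?_)
    simp
  have hint' : Integrable (fun b => (hi l (disp v b) : ℝ)) ν' := by
    refine (integrable_height v μ (-l) hs').neg.congr (ae_of_all _ fun b => ?_)
    simp [hi_neg]
  obtain ⟨G, hG⟩ := exists_grow ν (fun b => -disp v b) (hi l) hint
  obtain ⟨G', hG'⟩ := exists_grow ν' (disp v) (hi l) hint'
  -- starts one level down
  have hsumD : ∀ u, hi l u = -1 →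
      ∑' n, D ν (fun b => -disp v b) (pastW v) ν' (disp v) (futW v) u n ≠ ⊤ := by
    intro u hu
    have hlneg : -l = Pi.single a (-s) := by rw [hl, ← Pi.single_neg]
    obtain ⟨g, hgd, hgf, hg0⟩ := exists_flat_block v μ hell hunit (a := a) (s := -s)
      (by rcases hs1 with rfl | rfl <;> simp) (by rw [← hlneg]; exact hs') u
      (by rw [← hlneg, hi_neg, hu]; rfl)
    rw [← hlneg] at hgf hg0
    have hgf' : ∀ w ∈ futW v g, hi l w = 0 := fun w hw => by
      have := hgf w hw
      rw [hi_neg] at this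
      omega
    have hmap : (upLaw v μ (-(dot fun j => (l j : ℝ)))).map
        (fun t i => block v (-(dot fun j => (l j : ℝ))) i t) =
        Measure.infinitePi fun _ : ℕ => ν' := by
      rw [← he]; exact map_block v μ _ hs'
    have hs'' := hs'
    rw [he] at hs''
    have hle : ν' {g} * ∑' n, D ν (fun b => -disp v b) (pastW v) ν' (disp v) (futW v) u n ≤
        (law v μ (StayUp v (-(dot fun j => (l j : ℝ)))))⁻¹ := by
      rw [← ENNReal.tsum_mul_left]
      refine le_trans (ENNReal.tsum_le_tsum fun n => ?_) (avoidProb_sum_le v μ _ hs hs'')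
      rw [← hgd]
      exact (forced_missFut_le v (hi l) hB g hgf' n).trans
        (missFut_le_avoidProb v μ _ hs hs'' (map_block v μ _ hs) hmap n)
    intro htop
    rw [htop, ENNReal.mul_top hg0, top_le_iff] at hle
    exact ENNReal.inv_ne_top.2 hs'' hle
  have hzero : ∀ u, hi l u = -1 → ((iid ν).prod (iid ν'))
      (missAll (fun b => -disp v b) (pastW v) (disp v) (futW v) u) = 0 := fun u hu =>
    tendsto_nhds_unique (tendsto_D ν (fun b => -disp v b) (pastW v) ν' (disp v) (futW v) u)
      (ENNReal.tendsto_atTop_zero_of_tsum_ne_top (hsumD u hu))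
  -- blocks of height one
  have hone : ∃ b, hi l (-disp v b) = -1 ∧ ν {b} ≠ 0 := by
    obtain ⟨⟨b, -, -, hbd, hb⟩, -, -⟩ := exists_axis v μ (l := l) hell hunit hs hs1
      (a := a) (by rcases hs1 with rfl | rfl <;> simp [hl]) (j := a) (r := s) hs1
    exact ⟨b, by rcases hs1 with rfl | rfl <;> simp [hbd, hl, hi, Pi.single_apply], hb⟩
  have hone' : ∃ b, hi l (disp v b) = -1 ∧ ν' {b} ≠ 0 := by
    obtain ⟨⟨b, -, -, hbd, hb⟩, -, -⟩ := exists_axis v μ (l := -l) hell hunit hs' (a := a)
      (s := -s) (by rcases hs1 with rfl | rfl <;> simp)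
      (by rcases hs1 with rfl | rfl <;> simp [hl]) (j := a) (r := s) hs1
    exact ⟨b, by rcases hs1 with rfl | rfl <;> simp [hbd, hl, hi, Pi.single_apply], hb⟩
  have h0 : ∀ u, Tendsto (D ν (fun b => -disp v b) (pastW v) ν' (disp v) (futW v) u) atTop (𝓝 0) :=
    fun u => by
      have := tendsto_D ν (fun b => -disp v b) (pastW v) ν' (disp v) (futW v) u
      rwa [missAll_null ν _ _ ν' _ _ (hi l) hB hA hG hint' hone hone' hzero u] at this
  -- local bound and the free lemma
  obtain ⟨w, z, hli, hz, hpos⟩ := exists_two_coins v μ hd hell hunit l hs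
  obtain ⟨C, hC, hL⟩ := exists_local ν (fun b => -disp v b) (hi l) (hB.mono fun b hb => hb.1)
    (-w) (fun i => -z i) hli.neg (fun i => by rw [map_neg, hz i, neg_zero]) fun eps h0 => by
      refine hpos eps (measure_mono_null (fun b hb => ?_) h0)
      show -disp v b = _
      rw [show disp v b = _ from hb, neg_add, ← sum_neg_distrib]
      exact congrArg _ (sum_congr rfl fun i _ => by split_ifs <;> simp)
  have hW : ∫⁻ b, ((pastW v b).card : ℝ≥0∞) ∂ν ≠ ⊤ :=
    ne_top_of_le_ne_top (lintegral_len v μ _ hp hc hsp)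
      (lintegral_mono fun b => Nat.cast_le.2 (card_pastW v b))
  have hW' : ∫⁻ b, ((futW v b).card : ℝ≥0∞) ∂ν' ≠ ⊤ :=
    ne_top_of_le_ne_top (lintegral_len v μ _ hm hc' hsm)
      (lintegral_mono fun b => Nat.cast_le.2 (card_futW v b))
  have hfar : {u : Site d | hi l u = -1}.Infinite := by
    rw [hl]; exact infinite_level hd a hs1
  obtain ⟨u, hu, hdiv⟩ := exists_divergent (fun b => -disp v b) (pastW v) (disp v) (futW v) (hi l)
    ν ν' hB hA hG hG'
    (fun a b A ha ε hε => free (fun b => -disp v b) (pastW v) (disp v) (futW v) ν ν' (hi l) hB hA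
      hW hW' hG hC hL h0 a b A ha hε) hfar
  exact hsumD u hu hdiv

/-- A direction of escape with positive speed along two velocities makes them equal. -/
theorem velocity_eq {v1 v2 : Fin d → ℝ} (l : Fin d → ℝ) (hl : 0 < ∑ j, l j * v1 j)
    (hl' : 0 < ∑ j, l j * v2 j) (hp1 : law v μ (speed v v1) ≠ 0)
    (hp2 : law v μ (speed v v2) ≠ 0) : v1 = v2 := by
  by_contra hne
  obtain ⟨-, hnull⟩ := up_sdiff_speed v μ hl hp1
  refine hp2 (measure_mono_null (fun t ht => ?_) hnull)
  exact ⟨speed_up v ht hl', fun h' => hne (funext fun j => tendsto_nhds_unique (h' j) (ht j))⟩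

/-- At most one nonzero velocity in dimension at least three. -/
theorem velocity_unique (hd : 3 ≤ d) (hell : ∀ i, ∀ᵐ p ∂μ, 0 < (p : Row k).1 i)
    (hunit : ∀ j, (∃ i, v i = Pi.single j 1) ∧ ∃ i, v i = Pi.single j (-1))
    {v1 v2 : Fin d → ℝ} (h1 : v1 ≠ 0) (h2 : v2 ≠ 0) (hp1 : law v μ (speed v v1) ≠ 0)
    (hp2 : law v μ (speed v v2) ≠ 0) : v1 = v2 := by
  have hsign : ∀ x : ℝ, x ≠ 0 → ∃ s : ℤ, (s = 1 ∨ s = -1) ∧ 0 < (s : ℝ) * x := fun x hx => by
    rcases lt_or_gt_of_ne hx with h | h
    · exact ⟨-1, Or.inr rfl, by push_cast; linarith⟩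
    · exact ⟨1, Or.inl rfl, by push_cast; linarith⟩
  have hdot : ∀ (a : Fin d) (s : ℤ) (x : Fin d → ℝ),
      ∑ j, (((Pi.single a s : Fin d → ℤ) j : ℤ) : ℝ) * x j = s * x a := fun a s x => by
    rw [sum_eq_single a (fun j _ hj => by simp [hj]) (by simp), Pi.single_eq_same]
  have key : ∀ a : Fin d, v1 a ≠ 0 → v2 a ≠ 0 → v1 = v2 := by
    intro a ha hb
    obtain ⟨s, hs, hpos⟩ := hsign _ ha
    rcases lt_or_gt_of_ne (mul_ne_zero (left_ne_zero_of_mul hpos.ne') hb) with hneg | hpos'
    · exfalso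
      set l : Fin d → ℤ := Pi.single a s with hl
      have hl1 : 0 < ∑ j, (l j : ℝ) * v1 j := by rw [hl, hdot]; exact hpos
      have hl2 : 0 < ∑ j, (((-l) j : ℤ) : ℝ) * v2 j := by
        have := hdot a s v2
        simp only [Pi.neg_apply, Int.cast_neg, neg_mul, sum_neg_distrib, hl] at this ⊢
        linarith
      obtain ⟨hup, hnull⟩ := up_sdiff_speed v μ (l := fun j => (l j : ℝ)) hl1 hp1
      obtain ⟨hdn, hnull'⟩ := up_sdiff_speed v μ (l := fun j => (((-l) j : ℤ) : ℝ)) hl2 hp2
      refine no_opposite_axis v μ hd hell hunit a hs l hl hup hdn hl1 hl2 ?_ ?_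
      · refine measure_mono_null ?_ hnull
        intro t ht
        exact ⟨ht.1, fun h' => ht.2 (speed_height v h' _)⟩
      · refine measure_mono_null ?_ hnull'
        intro t ht
        exact ⟨ht.1, fun h' => ht.2 (speed_height v h' _)⟩
    · exact velocity_eq v μ (fun j => ((Pi.single a s : Fin d → ℤ) j : ℝ))
        (by rw [hdot]; exact hpos) (by rw [hdot]; exact hpos') hp1 hp2
  obtain ⟨a, ha⟩ := Function.ne_iff.1 h1
  by_cases hb : v2 a = 0
  · obtain ⟨b, hb'⟩ := Function.ne_iff.1 h2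
    by_cases hb1 : v1 b = 0
    · obtain ⟨s, -, hpos⟩ := hsign _ ha
      obtain ⟨r, -, hpos'⟩ := hsign _ hb'
      refine velocity_eq v μ (fun j => (((Pi.single a s + Pi.single b r : Fin d → ℤ) j : ℤ) : ℝ))
        ?_ ?_ hp1 hp2
      · simp only [Pi.add_apply, Int.cast_add, add_mul, sum_add_distrib, hdot, hb1, mul_zero,
          add_zero]
        exact hpos
      · simp only [Pi.add_apply, Int.cast_add, add_mul, sum_add_distrib, hdot, hb, mul_zero,
          zero_add]
        exact hpos'
    · exact key b hb1 hb'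
  · exact key a ha hb

end Vale.Agent.P147.Three
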