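import Vale.Agent.P147.Three.Rec

/-!
P147, at most one nonzero velocity in dimension at least three: iterating the dyadic recursion,
from a start one level below the tip and far aside the missing probabilities are not summable.
-/

open MeasureTheory Filter Finset
open scoped ENNReal Topology

namespace Vale.Agent.P147.Three

open Vale.Agent.P147.Cond Vale.Agent.P147.Speed

variable {d : ℕ} {β : Type*} {β' : Type*} {X : β → Site d} {W : β → Finset (Site d)}
  {X' : β' → Site d} {W' : β' → Finset (Site d)} {h : Site d →+ ℤ}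
  [MeasurableSpace β] [MeasurableSingletonClass β] [Countable β]
  [MeasurableSpace β'] [MeasurableSingletonClass β'] [Countable β']
  (ν : Measure β) [IsProbabilityMeasure ν] (ν' : Measure β') [IsProbabilityMeasure ν']

variable (X h) in
/-- Growing at most linearly almost surely gives it in probability. -/
theorem tendsto_fast {G A : ℕ} (hG : Grow ν X h G) (hGA : G ≤ A) :
    Tendsto (fun n : ℕ => iid ν {s | h (start X s n) < -((A : ℤ) * n)}) atTop (𝓝 0) := by
  have hm : ∀ n, MeasurableSet {s : ℕ → β | h (start X s n) < -((A : ℤ) * n)} := fun n =>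
    measurable_start X n (Set.to_countable {y : Site d | h y < -((A : ℤ) * n)}).measurableSet
  set B : ℕ → Set (ℕ → β) := fun n => ⋃ i ≥ n, {s | h (start X s i) < -((A : ℤ) * i)}
  have hB : Tendsto (fun n => iid ν (B n)) atTop (𝓝 0) := by
    have := tendsto_measure_iInter_atTop (μ := iid ν) (s := B)
      (fun n => (MeasurableSet.iUnion fun i => .iUnion fun _ => hm i).nullMeasurableSet)
      (fun n m hnm => Set.biUnion_subset_biUnion_left fun i hi => hnm.trans hi)
      ⟨0, measure_ne_top _ _⟩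
    have h0 : iid ν (⋂ n, B n) = 0 := by
      refine measure_mono_null (fun s hs => ?_) (ae_iff.1 hG)
      intro hev
      obtain ⟨N, hN⟩ := eventually_atTop.1 hev
      obtain ⟨i, hi, hlt⟩ := Set.mem_iUnion₂.1 (Set.mem_iInter.1 hs N)
      have h1 := hN i hi
      have h2 : (G : ℤ) * i ≤ A * i := by gcongr
      simp only [Set.mem_ofPred_eq] at hlt
      omega
    rwa [h0] at this
  exact tendsto_of_tendsto_of_tendsto_of_le_of_le tendsto_const_nhds hB (fun n => bot_le)
    fun n => measure_mono fun s hs => Set.mem_iUnion₂.2 ⟨n, le_rfl, hs⟩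

variable (X W X' W') in
/-- Far aside there is little meeting of finitely many pieces. -/
theorem exists_far (n J : ℕ) (hfar : {u : Site d | h u = -1}.Infinite) {ε : ℝ≥0∞} (hε : ε ≠ 0) :
    ∃ u, h u = -1 ∧ ((iid ν).prod (iid ν')) (hitF X W X' W' n J u) ≤ ε := by
  classical
  set e := hfar.natEmbedding
  set B : ℕ → Set ((ℕ → β) × (ℕ → β')) := fun k => ⋃ i ≥ k, hitF X W X' W' n J (e i).1
  have hlim := tendsto_measure_iInter_atTop (μ := (iid ν).prod (iid ν')) (s := B)
    (fun k => (MeasurableSet.iUnion fun i => .iUnion fun _ =>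
      measurableSet_hitF _ _ _).nullMeasurableSet)
    (fun n m hnm => Set.biUnion_subset_biUnion_left fun i hi => hnm.trans hi)
    ⟨0, measure_ne_top _ _⟩
  have hempty : ⋂ k, B k = ∅ := by
    refine Set.eq_empty_iff_forall_notMem.2 fun x hx => ?_
    set S : Finset (Site d) := (range n).biUnion fun q => (W (x.1 q)).biUnion fun w =>
      (range J).biUnion fun j => (W' (x.2 j)).image fun w' =>
        start X x.1 q + w - (start X' x.2 j + w')
    have hfin : {i | (e i).1 ∈ S}.Finite :=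
      S.finite_toSet.preimage fun i _ j _ hij => e.injective (Subtype.ext hij)
    obtain ⟨k, hk⟩ := hfin.bddAbove
    obtain ⟨i, hi, q, hq, w, hw, j, hj, w', hw', he⟩ :=
      Set.mem_iUnion₂.1 (Set.mem_iInter.1 hx (k + 1))
    have hmem : (e i).1 ∈ S := by
      simp only [S, mem_biUnion, mem_range, mem_image]
      exact ⟨q, hq, w, hw, j, hj, w', hw', by rw [he, add_sub_cancel_right]⟩
    have := hk hmem
    omega
  rw [hempty, measure_empty] at hlim
  obtain ⟨k, hk⟩ := (hlim.eventually (ge_mem_nhds (pos_iff_ne_zero.2 hε))).exists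
  exact ⟨(e k).1, (e k).2, (measure_mono fun x hx => Set.mem_iUnion₂.2 ⟨k, le_rfl, hx⟩).trans hk⟩

omit [MeasurableSingletonClass β] [Countable β] [MeasurableSingletonClass β'] [Countable β'] in
/-- The first scales are good. -/
theorem base_le {A t₁ T t : ℕ} {u : Site d} {η ζ : ℝ≥0∞} (hA0 : 0 < A) (htT : t ≤ T)
    (hu : ((iid ν).prod (iid ν')) (hitF X W X' W' (2 ^ T) (A * 2 ^ T) u) ≤ ζ)
    (hf : ∀ n, 2 ^ t₁ ≤ n → iid ν {s | h (start X s n) < -((A : ℤ) * n)} ≤ η)
    (hf' : ∀ n, 2 ^ t₁ ≤ n → iid ν' {s | h (start X' s n) < -((A : ℤ) * n)} ≤ η) :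
    1 ≤ ζ + ((T + 1 - t₁ : ℕ) : ℝ≥0∞) * (η + η) +
      ((iid ν).prod (iid ν')) (goodUpTo X W X' W' h A t₁ t u) := by
  set U : Set ((ℕ → β) × (ℕ → β')) := hitF X W X' W' (2 ^ T) (A * 2 ^ T) u ∪
    ⋃ s ∈ Finset.Icc t₁ T, (Prod.fst ⁻¹' {y | h (start X y (2 ^ s)) < -((A : ℤ) * (2 ^ s : ℕ))} ∪
      Prod.snd ⁻¹' {y | h (start X' y (A * 2 ^ s)) < -((A : ℤ) * (A * 2 ^ s : ℕ))})
  have hU : ((iid ν).prod (iid ν')) U ≤ ζ + ((T + 1 - t₁ : ℕ) : ℝ≥0∞) * (η + η) := by
    refine (measure_union_le _ _).trans (add_le_add hu ((measure_biUnion_finset_le _ _).trans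
      ((sum_le_card_nsmul _ _ (η + η) fun s hs => ?_).trans (le_of_eq ?_))))
    · have hs1 : 2 ^ t₁ ≤ 2 ^ s := Nat.pow_le_pow_right (by omega) (Finset.mem_Icc.1 hs).1
      refine (measure_union_le _ _).trans (add_le_add ?_ ?_)
      · rw [← Set.prod_univ, Measure.prod_prod, measure_univ, mul_one]
        exact hf _ hs1
      · rw [← Set.univ_prod, Measure.prod_prod, measure_univ, one_mul]
        exact hf' _ (hs1.trans (Nat.le_mul_of_pos_left _ hA0))
    · rw [Nat.card_Icc, nsmul_eq_mul]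
  have hsub : Uᶜ ⊆ goodUpTo X W X' W' h A t₁ t u := by
    intro x hx
    simp only [U, Set.mem_compl_iff, Set.mem_union, Set.mem_iUnion, not_or, not_exists] at hx
    refine ⟨fun s a b => ?_, fun hh => hx.1 ?_⟩
    · have := hx.2 s (Finset.mem_Icc.2 ⟨a, b.trans htT⟩)
      simp only [Set.mem_preimage, Set.mem_ofPred_eq, not_lt] at this
      exact this
    · obtain ⟨q, hq, w, hw, j, hj, w', hw', he⟩ := hh
      have h2 : 2 ^ t ≤ 2 ^ T := Nat.pow_le_pow_right (by omega) htT
      exact ⟨q, hq.trans_le h2, w, hw, j, hj.trans_le (Nat.mul_le_mul_left _ h2), w', hw', he⟩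
  rw [← measure_univ (μ := (iid ν).prod (iid ν'))]
  exact (measure_mono fun x _ => (em (x ∈ U)).imp id fun h' => hsub h').trans
    ((measure_union_le _ _).trans (add_le_add hU le_rfl))

omit [MeasurableSpace β] [MeasurableSingletonClass β] [Countable β] [MeasurableSpace β']
  [MeasurableSingletonClass β'] [Countable β'] in
/-- The recursion loses at most a fifth per step. -/
theorem grow_real {f : ℕ → ℝ} {L t₁ : ℕ} (hf1 : ∀ t, f t ≤ 1)
    (hbase : ∀ t, t₁ ≤ t → t ≤ t₁ + L + 1 → 9 / 10 ≤ f t)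
    (hstep : ∀ t, t₁ + L ≤ t → f t ≤ f (t + 1) + (4 / 5 : ℝ) ^ L / 5 * f (t - L)) (i : ℕ) :
    (4 / 5 : ℝ) ^ i * (9 / 10) ≤ f (t₁ + i) := by
  have ratio : ∀ t, ∀ s, t₁ ≤ s → s ≤ t → 4 / 5 * f s ≤ f (s + 1) := by
    intro t
    induction t with
    | zero =>
      intro s a b
      have := hbase (s + 1) (by omega) (by omega)
      linarith [hf1 s]
    | succ t ih =>
      intro s a b
      rcases b.eq_or_lt with rfl | hlt
      · rcases lt_or_ge (t + 1) (t₁ + L + 1) with hT' | hT'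
        · have := hbase (t + 1 + 1) (by omega) (by omega)
          linarith [hf1 (t + 1)]
        · have hback : ∀ i, i ≤ L → (4 / 5 : ℝ) ^ i * f (t + 1 - i) ≤ f (t + 1) := by
            intro i
            induction i with
            | zero => simp
            | succ i hi =>
              intro hiL
              have h1 := ih (t + 1 - (i + 1)) (by omega) (by omega)
              rw [show t + 1 - (i + 1) + 1 = t + 1 - i by omega] at h1
              refine le_trans ?_ (hi (by omega))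
              rw [pow_succ, mul_assoc]
              exact mul_le_mul_of_nonneg_left h1 (by positivity)
          have h2 := hstep (t + 1) (by omega)
          have h3 := hback L le_rfl
          linarith
      · exact ih s a (by omega)
  induction i with
  | zero => simpa using hbase t₁ le_rfl (by omega)
  | succ i hi =>
    have := ratio (t₁ + i) (t₁ + i) (Nat.le_add_right _ _) le_rfl
    rw [← add_assoc, pow_succ]
    linarith

omit [MeasurableSingletonClass β] [Countable β] [MeasurableSingletonClass β'] [Countable β']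
  [IsProbabilityMeasure ν] [IsProbabilityMeasure ν'] in
/-- A lower bound decaying slower than the scale makes the sum infinite. -/
theorem tsum_D_eq_top {A t₁ : ℕ} {u : Site d} (hu : h u = -1)
    (hreg : ∀ᵐ x ∂((iid ν).prod (iid ν')), regularPair X W X' W' h x)
    (hgrow : ∀ i, (4 / 5 : ℝ) ^ i * (9 / 10) ≤
      (((iid ν).prod (iid ν')) (goodUpTo X W X' W' h A t₁ (t₁ + i) u)).toReal) :
    ∑' n, D ν X W ν' X' W' u n = ⊤ := by
  have hD : ∀ t, t₁ ≤ t → ((iid ν).prod (iid ν')) (goodUpTo X W X' W' h A t₁ t u) ≤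
      D ν X W ν' X' W' u (2 ^ t) := by
    intro t ht
    refine measure_mono_ae ?_
    filter_upwards [hreg] with x hx hxt hh
    exact hxt.2 (mem_hitF hx (hxt.1 t ht le_rfl) hu hh)
  have hanti : ∀ n m, n ≤ m → D ν X W ν' X' W' u m ≤ D ν X W ν' X' W' u n := fun n m hnm =>
    measure_mono fun x hx ⟨q, a, b, r⟩ => hx ⟨q, a, b.trans_le hnm, r⟩
  by_contra hne
  have hbd : ∀ i : ℕ, (2 : ℝ) ^ (t₁ + i) * ((4 / 5 : ℝ) ^ i * (9 / 10)) ≤
      (∑' n, D ν X W ν' X' W' u n).toReal := by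
    intro i
    have h1 : ((2 ^ (t₁ + i) : ℕ) : ℝ≥0∞) * D ν X W ν' X' W' u (2 ^ (t₁ + i)) ≤
        ∑' n, D ν X W ν' X' W' u n := by
      refine le_trans ?_ (ENNReal.sum_le_tsum (range (2 ^ (t₁ + i))))
      rw [← nsmul_eq_mul]
      refine le_trans (le_of_eq (by rw [card_range])) (card_nsmul_le_sum _ _ _ fun n hn => ?_)
      exact hanti _ _ (mem_range.1 hn).le
    have h2 := ENNReal.toReal_mono hne
      ((mul_le_mul_right (hD _ (Nat.le_add_right _ _)) _).trans h1)
    rw [ENNReal.toReal_mul, ENNReal.toReal_natCast] at h2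
    push_cast at h2
    exact le_trans (mul_le_mul_of_nonneg_left (hgrow i) (by positivity)) h2
  obtain ⟨i, hi⟩ := pow_unbounded_of_one_lt
    ((∑' n, D ν X W ν' X' W' u n).toReal * (10 / 9)) (show (1 : ℝ) < 8 / 5 by norm_num)
  have h3 := hbd i
  have h4 : (8 / 5 : ℝ) ^ i * (9 / 10) ≤ (2 : ℝ) ^ (t₁ + i) * ((4 / 5 : ℝ) ^ i * (9 / 10)) := by
    rw [pow_add, show (8 / 5 : ℝ) = 2 * (4 / 5) by norm_num, mul_pow]
    have : (1 : ℝ) ≤ 2 ^ t₁ := one_le_pow₀ (by norm_num)
    nlinarith [mul_pos (pow_pos (show (0:ℝ) < 2 by norm_num) i)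
      (pow_pos (show (0:ℝ) < 4 / 5 by norm_num) i)]
  linarith

variable (X W X' W' h) in
/-- If meetings in dyadic ranges are rare, the missing probabilities from a suitable start one level
below the tip are not summable. -/
theorem exists_divergent (hB : Behind ν X W h) (hA : Ahead ν' X' W' h) {G G' : ℕ}
    (hG : Grow ν X h G) (hG' : Grow ν' X' h G')
    (hfree : ∀ a b A : ℕ, 0 < a → ∀ ε : ℝ≥0∞, ε ≠ 0 → ∀ᶠ m : ℕ in atTop, ∀ u : Site d,
      |h u| ≤ ((A * m : ℕ) : ℤ) →
        ((iid ν).prod (iid ν')) (hit X W X' W' (a * m) (b * m) u) ≤ ε)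
    (hfar : {u : Site d | h u = -1}.Infinite) :
    ∃ u, h u = -1 ∧ ∑' n, D ν X W ν' X' W' u n = ⊤ := by
  set P := (iid ν).prod (iid ν') with hP
  obtain ⟨A, hA0, hGA, hGA'⟩ : ∃ A : ℕ, 0 < A ∧ G ≤ A ∧ G' ≤ A :=
    ⟨max G G' + 1, Nat.succ_pos _, by omega, by omega⟩
  obtain ⟨L, hL⟩ : ∃ L, A * A + 1 ≤ 2 ^ L := ⟨A * A + 1, Nat.lt_two_pow_self.le⟩
  have hθ0 : ENNReal.ofReal ((4 / 5) ^ L / 15) ≠ 0 := by
    rw [Ne, ENNReal.ofReal_eq_zero, not_le]; positivity
  have hη0 : ENNReal.ofReal (1 / (1000 * ((L : ℝ) + 2))) ≠ 0 := by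
    rw [Ne, ENNReal.ofReal_eq_zero, not_le]; positivity
  have hreg : ∀ᵐ x ∂P, regularPair X W X' W' h x := by
    filter_upwards [Measure.quasiMeasurePreserving_fst.ae (ae_all_iff.2 fun i =>
        (measurePreserving_eval_infinitePi (fun _ : ℕ => ν) i).quasiMeasurePreserving.ae hB),
      Measure.quasiMeasurePreserving_snd.ae (ae_all_iff.2 fun i =>
        (measurePreserving_eval_infinitePi (fun _ : ℕ => ν') i).quasiMeasurePreserving.ae hA)]
      with x h1 h2
    exact ⟨h1, h2⟩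
  have hfast : ∀ ε : ℝ≥0∞, ε ≠ 0 → ∀ᶠ t : ℕ in atTop,
      (∀ n, 2 ^ t ≤ n → iid ν {s | h (start X s n) < -((A : ℤ) * n)} ≤ ε) ∧
        ∀ n, 2 ^ t ≤ n → iid ν' {s | h (start X' s n) < -((A : ℤ) * n)} ≤ ε := by
    intro ε hε
    obtain ⟨N, hN⟩ := eventually_atTop.1 (((tendsto_fast X h ν hG hGA).eventually
      (ge_mem_nhds (pos_iff_ne_zero.2 hε))).and
      ((tendsto_fast X' h ν' hG' hGA').eventually (ge_mem_nhds (pos_iff_ne_zero.2 hε))))
    filter_upwards [eventually_ge_atTop N] with t ht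
    have hNt : N ≤ 2 ^ t := ht.trans Nat.lt_two_pow_self.le
    exact ⟨fun n hn => (hN n (hNt.trans hn)).1, fun n hn => (hN n (hNt.trans hn)).2⟩
  obtain ⟨m₀, hm₀⟩ := eventually_atTop.1 (hfree (2 ^ L - 1) (2 ^ (L + 1)) (A * A + A + 1)
    (Nat.sub_pos_of_lt (lt_of_lt_of_le (Nat.lt_add_of_pos_left (Nat.mul_pos hA0 hA0)) hL)) _ hθ0)
  obtain ⟨t₁, ht₁⟩ := eventually_atTop.1 (((hfast _ hθ0).and (hfast _ hη0)).and
    (eventually_ge_atTop m₀))
  obtain ⟨u, hu, hufar⟩ := exists_far X W X' W' ν ν' (2 ^ (t₁ + L + 1))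
    (A * 2 ^ (t₁ + L + 1)) hfar (ε := ENNReal.ofReal (1 / 1000)) (by simp)
  refine ⟨u, hu, tsum_D_eq_top (A := A) (t₁ := t₁) ν ν' hu hreg (grow_real
    (f := fun t => (P (goodUpTo X W X' W' h A t₁ t u)).toReal) (L := L) ?_ ?_ ?_)⟩
  · intro t
    simpa using ENNReal.toReal_mono ENNReal.one_ne_top
      (prob_le_one (μ := P) (s := goodUpTo X W X' W' h A t₁ t u))
  · intro t _ htT
    have hb := base_le ν ν' hA0 htT hufar (ht₁ t₁ le_rfl).1.2.1 (ht₁ t₁ le_rfl).1.2.2
    rw [show t₁ + L + 1 + 1 - t₁ = L + 2 by omega,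
      ← ENNReal.ofReal_add (by positivity) (by positivity), ← ENNReal.ofReal_natCast,
      ← ENNReal.ofReal_mul (by positivity), ← ENNReal.ofReal_add (by positivity) (by positivity)]
      at hb
    have h5 := ENNReal.toReal_mono
      (ENNReal.add_ne_top.2 ⟨ENNReal.ofReal_ne_top, measure_ne_top _ _⟩) hb
    rw [ENNReal.toReal_one, ENNReal.toReal_add ENNReal.ofReal_ne_top (measure_ne_top _ _),
      ENNReal.toReal_ofReal (by positivity)] at h5
    have h6 : (1 / 1000 : ℝ) + ((L + 2 : ℕ) : ℝ) *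
        (1 / (1000 * ((L : ℝ) + 2)) + 1 / (1000 * ((L : ℝ) + 2))) = 3 / 1000 := by
      push_cast
      field_simp
      ring
    rw [h6] at h5
    show 9 / 10 ≤ (P (goodUpTo X W X' W' h A t₁ t u)).toReal
    linarith
  · intro t ht
    have h1 : m₀ ≤ 2 ^ (t - L) :=
      (ht₁ (t - L) (by omega)).2.trans Nat.lt_two_pow_self.le
    have hle := step ν ν' hA0 hL hu hreg (ht₁ t (by omega)).1.1.1 (ht₁ t (by omega)).1.1.2
      (hm₀ _ h1) ht
    have hne : ∀ s, P (goodUpTo X W X' W' h A t₁ s u) ≠ ⊤ := fun s => measure_ne_top _ _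
    rw [← ENNReal.ofReal_add (by positivity) (by positivity),
      ← ENNReal.ofReal_add (by positivity) (by positivity)] at hle
    have := ENNReal.toReal_mono (ENNReal.add_ne_top.2
      ⟨hne _, ENNReal.mul_ne_top ENNReal.ofReal_ne_top (hne _)⟩) hle
    rw [ENNReal.toReal_add (hne _) (ENNReal.mul_ne_top ENNReal.ofReal_ne_top (hne _)),
      ENNReal.toReal_mul, ENNReal.toReal_ofReal (by positivity)] at this
    convert this using 2
    ring

end Vale.Agent.P147.Three
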