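import Vale.Agent.P147.Three.Insert
import Vale.Agent.P147.Three.Diverge
import Vale.Agent.P147.Speed.Opposite

/-!
P147, at most one nonzero velocity in dimension at least three: facts about regeneration blocks
along an axis.
-/

open MeasureTheory Filter Finset
open scoped ENNReal Topology

namespace Vale.Agent.P147.Three

open Vale.Agent.P147.Cond Vale.Agent.P147.Speed Vale.Agent.P147.Dir Vale.Agent.P147.Dir.Blocks

variable {d k : ℕ} [NeZero k] (v : Fin k → Site d) (μ : Measure (Row k)) [IsProbabilityMeasure μ]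

/-- The law of a block along `l`. -/
noncomputable abbrev blkLaw (l : Fin d → ℤ) : Measure (Blk k) :=
  (upLaw v μ (dot fun j => (l j : ℝ))).map (blk0 v (dot fun j => (l j : ℝ)))

/-- The sites of a block before its end lie between its two ends in height. -/
theorem ae_block_band (l : Fin d → ℤ)
    (hs : law v μ (StayUp v (dot fun j => (l j : ℝ))) ≠ 0) :
    ∀ᵐ b ∂blkLaw v μ l, 0 < hi l (disp v b) ∧
      ∀ j < blen b, 0 ≤ hi l (bpos v b j) ∧ hi l (bpos v b j) < hi l (disp v b) := by
  refine (ae_map_iff (meas_blk0 v _).aemeasurable trivial).2 ?_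
  filter_upwards [regTime_reg v μ _ hs] with t hr
  obtain ⟨hlt, hstay, -, hlen, hpos⟩ := hr.2 0
  obtain ⟨-, -, hrec, -, -⟩ := hr.2 (0 + 1)
  rw [block_zero] at hlen hpos
  have h0 : regTime v (dot fun j => (l j : ℝ)) 0 t = 0 := rfl
  rw [h0] at hlen hpos hlt
  rw [h0, Blocks.shift_zero] at hstay
  simp only [Nat.zero_add] at hpos hlt hrec hlen
  have hp0 : pos v t 0 = 0 := by simp [pos]
  simp only [hp0, sub_zero] at hpos
  rw [Nat.sub_zero] at hlen
  have hdisp : disp v (blk0 v (dot fun j => (l j : ℝ)) t) =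
      pos v t (regTime v (dot fun j => (l j : ℝ)) 1 t) := by
    rw [disp, hpos _ le_rfl, hlen]
  have hrec' : ∀ q < regTime v (dot fun j => (l j : ℝ)) 1 t,
      hi l (pos v t q) < hi l (pos v t (regTime v (dot fun j => (l j : ℝ)) 1 t)) := fun q hq => by
    have := hrec q hq
    simp only [dot_cast] at this
    exact_mod_cast this
  refine ⟨?_, fun q hq => ?_⟩
  · rw [hdisp]
    simpa [hp0] using hrec' 0 hlt
  · rw [hdisp, hpos q hq.le]
    refine ⟨?_, hrec' q (by rwa [hlen] at hq)⟩
    have := hstay q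
    simp only [dot_cast] at this
    exact_mod_cast this

theorem behind_blocks (l : Fin d → ℤ)
    (hs : law v μ (StayUp v (dot fun j => (l j : ℝ))) ≠ 0) :
    Behind (blkLaw v μ l) (fun b => -disp v b) (pastW v) (hi l) :=
  (ae_block_band v μ l hs).mono fun b hb => ⟨by rw [map_neg]; linarith [hb.1], fun w hw => by
    obtain ⟨q, hq, rfl⟩ := mem_image.1 hw
    have := hb.2 q (mem_range.1 hq)
    rw [map_neg, map_sub]
    omega⟩

omit [NeZero k] [IsProbabilityMeasure μ] in
theorem hi_neg (l : Fin d → ℤ) (x : Site d) : hi (-l) x = -hi l x := by simp [hi]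

theorem ahead_blocks (l : Fin d → ℤ)
    (hs : law v μ (StayUp v (dot fun j => (((-l) j : ℤ) : ℝ))) ≠ 0) :
    Ahead (blkLaw v μ (-l)) (disp v) (futW v) (hi l) :=
  (ae_block_band v μ (-l) hs).mono fun b hb => by
    refine ⟨by have := hb.1; rw [hi_neg] at this; linarith, fun w hw => ?_⟩
    obtain ⟨q, hq, rfl⟩ := mem_image.1 hw
    have := hb.2 q (mem_range.1 hq)
    rw [hi_neg, hi_neg] at this
    omega

/-- The height of a block has finite mean. -/
theorem integrable_height (l : Fin d → ℤ)
    (hs : law v μ (StayUp v (dot fun j => (l j : ℝ))) ≠ 0) :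
    Integrable (fun b => (hi l (disp v b) : ℝ)) (blkLaw v μ l) := by
  have h1 : Integrable (bH v (dot fun j => (l j : ℝ))) (blkLaw v μ l) := by
    refine ⟨(Measurable.of_discrete (f := bH v _)).aestronglyMeasurable, ?_⟩
    rw [hasFiniteIntegral_iff_ofReal ((bH_pos v μ _ hs).mono fun b hb => hb.le)]
    exact lt_top_iff_ne_top.2 (lintegral_bH v μ _ hs)
  exact h1.congr (ae_of_all _ fun b => dot_cast l _)

omit [NeZero k] [IsProbabilityMeasure μ] in
/-- A finite mean drop gives linear growth. -/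
theorem exists_grow {β : Type*} [MeasurableSpace β] [Countable β] [MeasurableSingletonClass β]
    (ν : Measure β) [IsProbabilityMeasure ν] (X : β → Site d) (h : Site d →+ ℤ)
    (hint : Integrable (fun b => (h (X b) : ℝ)) ν) : ∃ G : ℕ, Grow ν X h G := by
  obtain ⟨G, hG⟩ := exists_nat_gt (-∫ b, (h (X b) : ℝ) ∂ν)
  refine ⟨G, ?_⟩
  filter_upwards [Dir.mean_tendsto ν (measurable_of_countable _) hint] with s hs
  filter_upwards [hs.eventually_const_lt (show -(G : ℝ) < ∫ b, (h (X b) : ℝ) ∂ν by linarith),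
    eventually_gt_atTop 0] with n hn hn0
  rw [lt_div_iff₀ (Nat.cast_pos.2 hn0)] at hn
  have e : (h (start X s n) : ℝ) = ∑ i ∈ range n, (h (X (s i)) : ℝ) := by
    rw [start, map_sum, Int.cast_sum]
  rw [← e] at hn
  have h2 : ((-((G : ℤ) * n) : ℤ) : ℝ) ≤ (h (start X s n) : ℝ) := by push_cast; linarith
  exact_mod_cast h2

/-- Two coins among the flat directions of blocks. -/
theorem exists_two_coins (hd : 3 ≤ d) (hell : ∀ i, ∀ᵐ p ∂μ, 0 < (p : Row k).1 i)
    (hunit : ∀ j, (∃ i, v i = Pi.single j 1) ∧ ∃ i, v i = Pi.single j (-1)) (l : Fin d → ℤ)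
    (hs : law v μ (StayUp v (dot fun j => (l j : ℝ))) ≠ 0) :
    ∃ (w : Site d) (z : Fin 2 → Site d), LinearIndependent ℤ z ∧ (∀ i, hi l (z i) = 0) ∧
      ∀ eps : Fin 2 → Bool,
        blkLaw v μ l {b | disp v b = w + ∑ i, if eps i then z i else 0} ≠ 0 := by
  classical
  obtain ⟨w, z, hli, hz, hz'⟩ := exists_coins v μ (l := l) hell hunit hs
  set ι : Fin 2 → Fin (d - 1) := Fin.castLE (by omega) with hι
  have hinj : Function.Injective ι := Fin.castLE_injective _
  refine ⟨w, z ∘ ι, hli.comp ι hinj, fun i => hz (ι i), fun eps h0 => ?_⟩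
  set eps' : Fin (d - 1) → Bool := Function.extend ι eps fun _ => false with heps
  refine hz' eps' (measure_mono_null (fun b hb => ?_) h0)
  show disp v b = _
  rw [show disp v b = _ from hb, sum_filter]
  refine congrArg (w + ·) (Fintype.sum_of_injective ι hinj _ _ (fun i hi' => ?_) fun i => ?_).symm
  · rw [heps, Function.extend_apply' _ _ _ (by simpa using hi')]
    simp
  · rw [heps, hinj.extend_apply]
    rfl

end Vale.Agent.P147.Three
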