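import Vale.Agent.P147.Three.Split
import Vale.Agent.P147.Dir.Velocity

/-!
P147, at most one nonzero velocity in dimension at least three: if from every start one level
below the tip the two concatenations meet for sure, they meet for sure from every start. Starts
of this kind recur: almost surely a piece of the first concatenation starts boundedly above the
start of a piece of the second one, and a bounded number of pieces of height one then makes the
levels differ by one.
-/

open MeasureTheory Filter Finset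
open scoped ENNReal Topology

namespace Vale.Agent.P147.Three

open Vale.Agent.P147.Cond Vale.Agent.P147.Speed

variable {d : ℕ} {β : Type*} [MeasurableSpace β] [MeasurableSingletonClass β] [Countable β]
  {β' : Type*} [MeasurableSpace β'] [MeasurableSingletonClass β'] [Countable β']
  (ν : Measure β) [IsProbabilityMeasure ν] (X : β → Site d) (W : β → Finset (Site d))
  (ν' : Measure β') [IsProbabilityMeasure ν'] (X' : β' → Site d) (W' : β' → Finset (Site d))
  (h : Site d →+ ℤ)

/-- The whole first concatenation misses the translate of the second one. -/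
def missAll (u : Site d) : Set ((ℕ → β) × (ℕ → β')) := ⋂ n, miss X W X' W' n u

theorem measurableSet_missAll (u : Site d) : MeasurableSet (missAll X W X' W' u) :=
  .iInter fun n => measurableSet_miss X W X' W' n u

theorem tendsto_D (u : Site d) :
    Tendsto (D ν X W ν' X' W' u) atTop
      (𝓝 (((iid ν).prod (iid ν')) (missAll X W X' W' u))) :=
  tendsto_measure_iInter_atTop (fun n => (measurableSet_miss X W X' W' n u).nullMeasurableSet)
    (fun n m hnm x hx ⟨q, h1, h2, hr⟩ => hx ⟨q, h1, lt_of_lt_of_le h2 hnm, hr⟩)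
    ⟨0, measure_ne_top _ _⟩

omit [MeasurableSpace β] [MeasurableSingletonClass β] [Countable β] [MeasurableSpace β']
  [MeasurableSingletonClass β'] [Countable β'] in
theorem missAll_drop (K L : ℕ) (u : Site d) {x : (ℕ → β) × (ℕ → β')}
    (hx : x ∈ missAll X W X' W' u) :
    drop2 K L x ∈ missAll X W X' W' (u + start X' x.2 L - start X x.1 K) :=
  Set.mem_iInter.2 fun n => miss_drop X W X' W' K L n u (Set.mem_iInter.1 hx (K + n))

/-- The start of piece `K` lies at most `M` above that of piece `L + 1` of the translate and below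
that of its piece `L`. -/
def trial (M : ℕ) (u : Site d) (K L : ℕ) (x : (ℕ → β) × (ℕ → β')) : Prop :=
  (∀ i < K, h (X (x.1 i)) < 0) ∧ (∀ i < L + 1, h (X' (x.2 i)) < 0) ∧
    h u + h (start X' x.2 (L + 1)) ≤ h (start X x.1 K) ∧
    h (start X x.1 K) < h u + h (start X' x.2 L) ∧
    h (start X x.1 K) - (h u + h (start X' x.2 (L + 1))) ≤ M

/-- The first trial. -/
def firstTrial (M : ℕ) (u : Site d) (p : ℕ × ℕ) : Set ((ℕ → β) × (ℕ → β')) :=
  {x | trial X X' h M u p.1 p.2 x ∧ ∀ K' < p.1, ∀ L' ≤ p.2, ¬ trial X X' h M u K' L' x}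

omit [MeasurableSpace β] [MeasurableSingletonClass β] [Countable β] in
theorem start_congr {s t : ℕ → β} {n : ℕ} (hst : ∀ i < n, t i = s i) {m : ℕ} (hm : m ≤ n) :
    start X t m = start X s m :=
  sum_congr rfl fun i hi => by rw [hst i ((mem_range.1 hi).trans_le hm)]

omit [MeasurableSpace β] [MeasurableSingletonClass β] [Countable β] in
theorem h_start_anti {s : ℕ → β} {m n : ℕ} (hs : ∀ i < n, h (X (s i)) < 0) (hmn : m < n) :
    h (start X s n) < h (start X s m) := by
  induction n with
  | zero => omega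
  | succ n ih =>
    rw [start_succ, map_add]
    have h1 := hs n (Nat.lt_succ_self n)
    rcases Nat.lt_succ_iff_lt_or_eq.1 hmn with h2 | h2
    · have := ih (fun i hi => hs i (hi.trans (Nat.lt_succ_self n))) h2
      linarith
    · subst h2; linarith

omit [MeasurableSpace β] [MeasurableSingletonClass β] [Countable β] [MeasurableSpace β']
  [MeasurableSingletonClass β'] [Countable β'] in
theorem trial_congr {M : ℕ} {u : Site d} {K L : ℕ} {x y : (ℕ → β) × (ℕ → β')} {K₀ L₀ : ℕ}
    (hy : y ∈ cyl K₀ (L₀ + 1) x) (hK : K ≤ K₀) (hL : L ≤ L₀) :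
    trial X X' h M u K L y ↔ trial X X' h M u K L x := by
  have e1 : ∀ i < K, y.1 i = x.1 i := fun i hi => hy.1 i (hi.trans_le hK)
  have e2 : ∀ i < L + 1, y.2 i = x.2 i := fun i hi => hy.2 i (by omega)
  simp only [trial, start_congr X e1 le_rfl, start_congr X' e2 le_rfl,
    start_congr X' e2 (Nat.le_succ L)]
  constructor <;> rintro ⟨a, b, c⟩
  · exact ⟨fun i hi => e1 i hi ▸ a i hi, fun i hi => e2 i hi ▸ b i hi, c⟩
  · exact ⟨fun i hi => (e1 i hi).symm ▸ a i hi, fun i hi => (e2 i hi).symm ▸ b i hi, c⟩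

omit [MeasurableSpace β] [MeasurableSingletonClass β] [Countable β] [MeasurableSpace β']
  [MeasurableSingletonClass β'] [Countable β'] in
theorem cyl_subset_firstTrial {M : ℕ} {u : Site d} {p : ℕ × ℕ} {x : (ℕ → β) × (ℕ → β')}
    (hx : x ∈ firstTrial X X' h M u p) :
    cyl p.1 (p.2 + 1) x ⊆ firstTrial X X' h M u p := fun y hy =>
  ⟨(trial_congr X X' h hy le_rfl le_rfl).2 hx.1, fun K' hK L' hL hy' =>
    hx.2 K' hK L' hL ((trial_congr X X' h hy hK.le hL).1 hy')⟩

omit [MeasurableSpace β] [MeasurableSingletonClass β] [Countable β] [MeasurableSpace β']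
  [MeasurableSingletonClass β'] [Countable β'] in
theorem disjoint_firstTrial (M : ℕ) (u : Site d) :
    Pairwise (Function.onFun Disjoint (firstTrial X X' h M u)) := by
  suffices H : ∀ p q : ℕ × ℕ, p.1 ≤ q.1 → p ≠ q → ∀ x, x ∈ firstTrial X X' h M u p →
      x ∈ firstTrial X X' h M u q → False from fun p q hpq => Set.disjoint_left.2 fun x hp hq =>
    (le_total p.1 q.1).elim (fun hl => H p q hl hpq x hp hq) fun hl => H q p hl hpq.symm x hq hp
  rintro ⟨K, L⟩ ⟨K', L'⟩ hle hne x ⟨⟨a1, a2, a3, a4, a5⟩, -⟩ ⟨⟨b1, b2, b3, b4, b5⟩, bmin⟩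
  rcases hle.eq_or_lt with rfl | hlt
  · rcases lt_trichotomy L L' with hl | rfl | hl
    · rcases (Nat.succ_le_of_lt hl).eq_or_lt with he | he
      · simp only at b4 a3; rw [← he] at b4; linarith
      · have := h_start_anti X' h (m := L + 1) (n := L') (fun i hi => b2 i (by omega)) he
        linarith
    · exact hne rfl
    · rcases (Nat.succ_le_of_lt hl).eq_or_lt with he | he
      · simp only at a4 b3; rw [← he] at a4; linarith
      · have := h_start_anti X' h (m := L' + 1) (n := L) (fun i hi => a2 i (by omega)) he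
        linarith
  · rcases le_or_gt L L' with hl | hl
    · exact bmin K hlt L hl ⟨a1, a2, a3, a4, a5⟩
    · have h1 := h_start_anti X h (m := K) (n := K') b1 hlt
      rcases (Nat.succ_le_of_lt hl).eq_or_lt with he | he
      · simp only at a4 b3; rw [← he] at a4; linarith
      · have := h_start_anti X' h (m := L' + 1) (n := L) (fun i hi => a2 i (by omega)) he
        linarith

theorem measurableSet_firstTrial (M : ℕ) (u : Site d) (p : ℕ × ℕ) :
    MeasurableSet (firstTrial X X' h M u p) := by
  let π : (ℕ → β) × (ℕ → β') → (Fin p.1 → β) × (Fin (p.2 + 1) → β') :=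
    fun x => (fun i => x.1 i, fun i => x.2 i)
  have hπ : Measurable π :=
    (measurable_pi_lambda _ fun i => (measurable_pi_apply _).comp measurable_fst).prodMk
      (measurable_pi_lambda _ fun i => (measurable_pi_apply _).comp measurable_snd)
  have e : firstTrial X X' h M u p = π ⁻¹' (π '' firstTrial X X' h M u p) := by
    refine (Set.subset_preimage_image π _).antisymm ?_
    rintro y ⟨x, hx, he⟩
    refine cyl_subset_firstTrial X X' h hx ⟨fun i hi => ?_, fun i hi => ?_⟩
    · exact (congrFun (congrArg Prod.fst he) ⟨i, hi⟩).symm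
    · exact (congrFun (congrArg Prod.snd he) ⟨i, hi⟩).symm
  rw [e]
  exact hπ (Set.to_countable _).measurableSet

/-- Almost surely there is a trial. -/
theorem exists_trial (hB : Behind ν X W h) (hA : Ahead ν' X' W' h) {G : ℕ} (hG : Grow ν X h G)
    (hint : Integrable (fun b => (h (X' b) : ℝ)) ν') :
    ∃ M : ℕ, ∀ u : Site d, ∀ᵐ x ∂(iid ν).prod (iid ν'), ∃ p, x ∈ firstTrial X X' h M u p := by
  classical
  let f : ℕ → β' → ℝ := fun M b => if h (X' b) < -(M : ℤ) then -(h (X' b) : ℝ) else 0
  have hf : ∀ M, Measurable (f M) := fun M => measurable_of_countable _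
  have hfb : ∀ M b, ‖f M b‖ ≤ ‖(h (X' b) : ℝ)‖ := fun M b => by
    simp only [f]; split_ifs <;> simp
  have hfi : ∀ M, Integrable (f M) ν' := fun M =>
    hint.norm.mono' (hf M).aestronglyMeasurable (ae_of_all _ (hfb M))
  obtain ⟨M, hM⟩ : ∃ M : ℕ, ∫ b, f M b ∂ν' < 1 / (2 * (G + 2)) := by
    have ht : Tendsto (fun M => ∫ b, f M b ∂ν') atTop (𝓝 (∫ _, (0 : ℝ) ∂ν')) := by
      refine tendsto_integral_of_dominated_convergence (fun b => ‖(h (X' b) : ℝ)‖)
        (fun M => (hf M).aestronglyMeasurable) hint.norm (fun M => ae_of_all _ (hfb M))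
        (ae_of_all _ fun b => tendsto_const_nhds.congr' ?_)
      filter_upwards [eventually_ge_atTop (h (X' b)).natAbs] with M hM
      simp only [f]
      rw [if_neg (by omega)]
    rw [integral_zero] at ht
    exact (ht.eventually_lt_const (by positivity)).exists
  refine ⟨M, fun u => ?_⟩
  have h1 : ∀ᵐ s ∂iid ν, (∀ i, h (X (s i)) < 0) ∧
      ∀ᶠ n in atTop, -((G : ℤ) * n) ≤ h (start X s n) := (ae_all_iff.2 fun i =>
    (measurePreserving_eval_infinitePi (fun _ : ℕ => ν) i).quasiMeasurePreserving.ae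
      (hB.mono fun b hb => hb.1)).and hG
  have h2 : ∀ᵐ c ∂iid ν', (∀ i, h (X' (c i)) < 0) ∧
      ∀ᶠ n in atTop, (∑ i ∈ range n, f M (c i)) / n < 1 / (2 * ((G : ℝ) + 2)) :=
    (ae_all_iff.2 fun i =>
      (measurePreserving_eval_infinitePi (fun _ : ℕ => ν') i).quasiMeasurePreserving.ae
        (hA.mono fun b hb => hb.1)).and
      ((Dir.mean_tendsto ν' (hf M) (hfi M)).mono fun c hc => hc.eventually_lt_const hM)
  filter_upwards [Measure.quasiMeasurePreserving_fst.ae h1,
    Measure.quasiMeasurePreserving_snd.ae h2] with x hx hx'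
  obtain ⟨hdR, hgrow⟩ := hx
  obtain ⟨hdS, hsum⟩ := hx'
  set a : ℕ → ℤ := fun K => h (start X x.1 K) with ha
  set b : ℕ → ℤ := fun L => h u + h (start X' x.2 L) with hb
  have hlin : ∀ n : ℕ, h (start X' x.2 n) ≤ -(n : ℤ) ∧ a n ≤ -(n : ℤ) := fun n => by
    induction n with
    | zero => simp [ha, start]
    | succ n ih =>
      have := hdS n
      have := hdR n
      simp only [ha, start_succ, map_add] at ih ⊢
      push_cast
      omega
  suffices hex : ∃ K L, trial X X' h M u K L x by
    obtain ⟨L, hL⟩ := Nat.find_spec hex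
    exact ⟨(Nat.find hex, L), hL, fun K' hK L' _ h' => Nat.find_min hex hK ⟨L', h'⟩⟩
  by_contra hno
  push Not at hno
  obtain ⟨K₁, hK₁⟩ := eventually_atTop.1 hgrow
  set K₀ := max K₁ ((h u).natAbs + 1) with hK₀
  obtain ⟨N, hN⟩ := eventually_atTop.1 hsum
  set n := N + 2 * K₀ + 1 with hn
  set J := (G + 1) * n with hJ
  have hbJ : ∀ K ∈ Ico K₀ n, b J ≤ a K := fun K hK => by
    rw [mem_Ico] at hK
    have h3 := hK₁ K (by omega)
    have h4 := (hlin J).1
    have h5 : (G : ℤ) * K ≤ G * n := by gcongr; omega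
    have h6 : (J : ℤ) = G * n + n := by rw [hJ]; push_cast; ring
    simp only [ha, hb] at *
    omega
  have key : ∀ K ∈ Ico K₀ n, ∃ L ∈ (range J).filter fun L => h (X' (x.2 L)) < -(M : ℤ),
      b (L + 1) ≤ a K ∧ a K < b L := by
    intro K hK
    have hex : ∃ L, b L ≤ a K := ⟨J, hbJ K hK⟩
    obtain ⟨L, hL⟩ : ∃ L, Nat.find hex = L + 1 := by
      refine Nat.exists_eq_succ_of_ne_zero fun h0 => ?_
      have := Nat.find_spec hex
      rw [h0] at this
      have := (hlin K).2
      rw [mem_Ico] at hK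
      simp [hb, start] at *
      omega
    have hs := Nat.find_spec hex
    rw [hL] at hs
    have hlt : a K < b L := not_le.1 (Nat.find_min hex (by omega))
    have hJL := Nat.find_min' hex (hbJ K hK)
    refine ⟨L, mem_filter.2 ⟨mem_range.2 (by omega), ?_⟩, hs, hlt⟩
    have := hno K L
    simp only [trial, not_and, not_le] at this
    have h3 := this (fun i _ => hdR i) (fun i _ => hdS i) hs hlt
    simp only [ha, hb, start_succ, map_add] at h3 hlt
    omega
  choose! L hL hL1 hL2 using key
  set T := (range J).filter fun L => h (X' (x.2 L)) < -(M : ℤ)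
  have hinj : Set.InjOn a (Ico K₀ n : Finset ℕ) := by
    intro p _ q _ e
    rcases lt_trichotomy p q with hpq | hpq | hpq
    · exact absurd e (h_start_anti X h (fun i _ => hdR i) hpq).ne'
    · exact hpq
    · exact absurd e (h_start_anti X h (fun i _ => hdR i) hpq).ne
  have hcard : ((n - K₀ : ℕ) : ℝ) ≤ ∑ i ∈ range J, f M (x.2 i) := by
    have h3 : (Ico K₀ n).image a ⊆ T.biUnion fun L => Finset.Ico (b (L + 1)) (b L) := by
      intro z hz
      obtain ⟨K, hK, rfl⟩ := mem_image.1 hz
      exact mem_biUnion.2 ⟨L K, hL K hK, mem_Ico.2 ⟨hL1 K hK, hL2 K hK⟩⟩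
    have h4 := (card_le_card h3).trans card_biUnion_le
    rw [card_image_of_injOn hinj, Nat.card_Ico] at h4
    refine (Nat.cast_le.2 h4).trans ?_
    push_cast
    rw [sum_filter]
    refine sum_le_sum fun i _ => ?_
    simp only [f]
    split_ifs with hi
    · rw [Int.card_Ico]
      simp only [hb, start_succ, map_add]
      have e : (h u + h (start X' x.2 i) - (h u + (h (start X' x.2 i) + h (X' (x.2 i))))).toNat =
          (-h (X' (x.2 i))).toNat := by congr 1; ring
      rw [e, ← Int.cast_natCast, Int.toNat_of_nonneg (by omega)]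
      simp
    · rfl
  have hJ0 : (0 : ℝ) < J := by
    rw [hJ]; positivity
  have h5 := (div_lt_iff₀ hJ0).1 (hN J (by rw [hJ]; nlinarith))
  have h6 : 1 / (2 * ((G : ℝ) + 2)) * J ≤ n / 2 := by
    rw [hJ]; push_cast
    rw [div_mul_eq_mul_div, one_mul, div_le_div_iff₀ (by positivity) two_pos]
    nlinarith [(n.cast_nonneg : (0 : ℝ) ≤ n)]
  have h7 : ((n - K₀ : ℕ) : ℝ) = (n : ℝ) - K₀ := Nat.cast_sub (by omega)
  have h8 : (2 : ℝ) * K₀ < n := by exact_mod_cast (show 2 * K₀ < n by omega)
  linarith

/-- If the concatenations meet for sure from every start one level below the tip, they do from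
every start. -/
theorem missAll_null (hB : Behind ν X W h) (hA : Ahead ν' X' W' h) {G : ℕ} (hG : Grow ν X h G)
    (hint : Integrable (fun b => (h (X' b) : ℝ)) ν')
    (h1 : ∃ b, h (X b) = -1 ∧ ν {b} ≠ 0) (h1' : ∃ b, h (X' b) = -1 ∧ ν' {b} ≠ 0)
    (hzero : ∀ u, h u = -1 → ((iid ν).prod (iid ν')) (missAll X W X' W' u) = 0) (u : Site d) :
    ((iid ν).prod (iid ν')) (missAll X W X' W' u) = 0 := by
  classical
  obtain ⟨b₁, hb₁, hb₁0⟩ := h1
  obtain ⟨b₂, hb₂, hb₂0⟩ := h1'
  obtain ⟨M, hM⟩ := exists_trial ν X W ν' X' W' h hB hA hG hint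
  set P := (iid ν).prod (iid ν')
  set φ := ⨆ u, P (missAll X W X' W' u)
  set δ := ν {b₁} ^ M * ν' {b₂} with hδ
  have hδ0 : δ ≠ 0 := mul_ne_zero (pow_ne_zero _ hb₁0) hb₂0
  have hφ : φ ≤ 1 := iSup_le fun u => prob_le_one
  have near : ∀ v, -(M : ℤ) ≤ h v → h v ≤ 0 → P (missAll X W X' W' v) ≤ (1 - δ) * φ := by
    intro v hv1 hv2
    obtain ⟨j, i, hj, hi, hlev⟩ : ∃ j i : ℕ, j ≤ M ∧ i ≤ 1 ∧ h v - i + j = -1 := by
      rcases hv2.eq_or_lt with h0 | h0
      · exact ⟨0, 1, Nat.zero_le _, le_rfl, by simp [h0]⟩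
      · exact ⟨(-h v - 1).toNat, 0, by omega, by omega, by omega⟩
    set F : Set ((ℕ → β) × (ℕ → β')) := cyl j i (fun _ => b₁, fun _ => b₂)
    have hFm : MeasurableSet F := measurableSet_cyl _ _ _
    have hδF : δ ≤ P F := by
      show δ ≤ P (begins j _ ×ˢ begins i _)
      rw [Measure.prod_prod, iid_begins, iid_begins]
      simp only [prod_const, card_range, hδ]
      refine mul_le_mul' (pow_le_pow_right_of_le_one' prob_le_one hj) ?_
      simpa using pow_le_pow_right_of_le_one' (prob_le_one (μ := ν') (s := {b₂})) hi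
    have e1 : P (missAll X W X' W' v ∩ F) ≤ 0 * P F := by
      refine split_le ν ν' j i (fun x hx y hy => ⟨fun q hq => (hy.1 q hq).trans (hx.1 q hq),
        fun q hq => (hy.2 q hq).trans (hx.2 q hq)⟩) fun x hx =>
        ⟨_, measurableSet_missAll X W X' W' (v + start X' (fun _ => b₂) i - start X (fun _ => b₁) j),
          (hzero _ ?_).le, fun y hy hE => ?_⟩
      · simp only [start, sum_const, card_range, map_add, map_sub]
        rw [map_nsmul, map_nsmul, hb₁, hb₂]
        simp only [smul_neg, nsmul_eq_mul, mul_one]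
        linarith
      · rw [← start_congr X (fun q hq => (hy.1 q hq).trans (hx.1 q hq)) le_rfl,
          ← start_congr X' (fun q hq => (hy.2 q hq).trans (hx.2 q hq)) le_rfl]
        exact missAll_drop X W X' W' j i v hE
    have e2 : P (missAll X W X' W' v ∩ Fᶜ) ≤ φ * P Fᶜ := by
      refine split_le ν ν' j i (fun x hx y hy hyF => hx
        ⟨fun q hq => (hy.1 q hq).symm.trans (hyF.1 q hq),
          fun q hq => (hy.2 q hq).symm.trans (hyF.2 q hq)⟩) fun x hx =>
        ⟨_, measurableSet_missAll X W X' W' (v + start X' x.2 i - start X x.1 j),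
          le_iSup (fun w => P (missAll X W X' W' w)) _, fun y hy hE => ?_⟩
      rw [← start_congr X (fun q hq => hy.1 q hq) le_rfl,
        ← start_congr X' (fun q hq => hy.2 q hq) le_rfl]
      exact missAll_drop X W X' W' j i v hE
    rw [zero_mul] at e1
    calc P (missAll X W X' W' v)
        ≤ P (missAll X W X' W' v ∩ F) + P (missAll X W X' W' v ∩ Fᶜ) := measure_le_inter_add_sdiff ..
      _ ≤ 0 + φ * (1 - δ) := by
          refine add_le_add e1 (e2.trans (mul_le_mul_right ?_ _))
          rw [prob_compl_eq_one_sub hFm]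
          exact tsub_le_tsub_left hδF 1
      _ = _ := by rw [zero_add, mul_comm]
  have any : ∀ v, P (missAll X W X' W' v) ≤ (1 - δ) * φ := by
    intro v
    set S := firstTrial X X' h M v
    have hnull : P (⋃ p, S p)ᶜ = 0 := by
      rw [Set.compl_iUnion]
      refine measure_mono_null (fun x hx => ?_) (ae_iff.1 (hM v))
      exact fun ⟨p, hp⟩ => Set.mem_iInter.1 hx p hp
    have hsub : missAll X W X' W' v ⊆ (⋃ p, missAll X W X' W' v ∩ S p) ∪ (⋃ p, S p)ᶜ := fun x hx =>
      (em (x ∈ ⋃ p, S p)).imp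
        (fun h' => by
          obtain ⟨p, hp⟩ := Set.mem_iUnion.1 h'
          exact Set.mem_iUnion.2 ⟨p, hx, hp⟩) id
    calc P (missAll X W X' W' v) ≤ P (⋃ p, missAll X W X' W' v ∩ S p) + P (⋃ p, S p)ᶜ :=
          (measure_mono hsub).trans (measure_union_le _ _)
      _ ≤ ∑' p, (1 - δ) * φ * P (S p) := by
          rw [hnull, add_zero]
          refine (measure_iUnion_le _).trans (ENNReal.tsum_le_tsum fun p => ?_)
          refine split_le ν ν' p.1 (p.2 + 1) (fun x hx => cyl_subset_firstTrial X X' h hx)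
            fun x hx => ⟨_, measurableSet_missAll X W X' W'
              (v + start X' x.2 (p.2 + 1) - start X x.1 p.1), near _ ?_ ?_, fun y hy hE => ?_⟩
          · rw [map_sub, map_add]; linarith [hx.1.2.2.2.2]
          · rw [map_sub, map_add]; linarith [hx.1.2.2.1]
          · rw [← start_congr X (fun q hq => hy.1 q hq) le_rfl,
              ← start_congr X' (fun q hq => hy.2 q hq) le_rfl]
            exact missAll_drop X W X' W' _ _ v hE
      _ ≤ _ := by
          rw [ENNReal.tsum_mul_left,
            ← measure_iUnion (disjoint_firstTrial X X' h M v)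
              (measurableSet_firstTrial X X' h M v)]
          exact mul_le_of_le_one_right' prob_le_one
  have hle : φ ≤ (1 - δ) * φ := iSup_le any
  have h0 : φ = 0 := by
    by_contra hne
    have hlt : (1 - δ) * φ < 1 * φ :=
      ENNReal.mul_lt_mul_left hne (ne_top_of_le_ne_top ENNReal.one_ne_top hφ)
        (ENNReal.sub_lt_self ENNReal.one_ne_top one_ne_zero hδ0)
    rw [one_mul] at hlt
    exact hlt.not_ge hle
  exact le_antisymm ((le_iSup (fun w => P (missAll X W X' W' w)) u).trans h0.le) bot_le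

end Vale.Agent.P147.Three
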