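import Vale.Agent.P147.Speed.Prefix

/-!
P147, at most one nonzero velocity in dimension at least three: two concatenations of iid pieces
going down, the events that the first misses or meets the second, and the properties used.
-/

open MeasureTheory Filter Finset
open scoped ENNReal Topology

namespace Vale.Agent.P147.Three

open Vale.Agent.P147.Cond Vale.Agent.P147.Speed

variable {d : ℕ} {β : Type*} [MeasurableSpace β] {β' : Type*} [MeasurableSpace β']
  (ν : Measure β) (X : β → Site d) (W : β → Finset (Site d))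
  (ν' : Measure β') (X' : β' → Site d) (W' : β' → Finset (Site d)) (h : Site d →+ ℤ)

/-- Pieces behind a tip: the piece drops and its sites lie at heights in `[h (X b), 0)`. -/
def Behind : Prop := ∀ᵐ b ∂ν, h (X b) < 0 ∧ ∀ w ∈ W b, h (X b) ≤ h w ∧ h w < 0

/-- Pieces ahead of a tip: the piece drops and its sites lie at heights in `(h (X b), 0]`. -/
def Ahead : Prop := ∀ᵐ b ∂ν', h (X' b) < 0 ∧ ∀ w ∈ W' b, h (X' b) < h w ∧ h w ≤ 0

/-- Almost surely the first `n` pieces eventually drop by at most `A n`. -/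
def Grow (A : ℕ) : Prop :=
  ∀ᵐ s ∂iid ν, ∀ᶠ n in atTop, -((A : ℤ) * n) ≤ h (start X s n)

/-- The sum over `q ≥ n` of the point masses of the `q`-th start is at most `C / (n + 1)`. -/
def Local (C : ℝ≥0∞) : Prop :=
  ∀ (n : ℕ) (x : Site d), ((n : ℝ≥0∞) + 1) * ∑' q, iid ν {s | start X s (q + n) = x} ≤ C

/-- A piece of index in `[a, b)` meets the translate by `u` of the second concatenation. -/
def hit (a b : ℕ) (u : Site d) : Set ((ℕ → β) × (ℕ → β')) :=
  {x | ∃ q, a ≤ q ∧ q < b ∧ ∃ w ∈ W (x.1 q), ∃ z ∈ Occ X' W' x.2, start X x.1 q + w = u + z}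

/-- The pieces of index `< n` miss the translate by `u` of the second concatenation. -/
def miss (n : ℕ) (u : Site d) : Set ((ℕ → β) × (ℕ → β')) := (hit X W X' W' 0 n u)ᶜ

/-- Probability that the first `n` pieces miss. -/
noncomputable def D (u : Site d) (n : ℕ) : ℝ≥0∞ :=
  ((iid ν).prod (iid ν')) (miss X W X' W' n u)

theorem measurableSet_hit [Countable β] [MeasurableSingletonClass β] [Countable β']
    [MeasurableSingletonClass β'] (a b : ℕ) (u : Site d) :
    MeasurableSet (hit X W X' W' a b u) := by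
  have e : hit X W X' W' a b u = ⋃ (q : ℕ) (z : Site d),
      ((fun x : (ℕ → β) × (ℕ → β') => (start X x.1 q, x.1 q)) ⁻¹'
        {y | a ≤ q ∧ q < b ∧ ∃ w ∈ W y.2, y.1 + w = u + z}) ∩ {x | z ∈ Occ X' W' x.2} := by
    ext x
    simp only [hit, Set.mem_iUnion, Set.mem_inter_iff, Set.mem_preimage, Set.mem_ofPred_eq]
    exact ⟨fun ⟨q, h1, h2, w, hw, z, hz, he⟩ => ⟨q, z, ⟨h1, h2, w, hw, he⟩, hz⟩,
      fun ⟨q, z, ⟨h1, h2, w, hw, he⟩, hz⟩ => ⟨q, h1, h2, w, hw, z, hz, he⟩⟩
  rw [e]
  exact .iUnion fun q => .iUnion fun z =>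
    ((((measurable_start X q).comp measurable_fst).prodMk
      ((measurable_pi_apply q).comp measurable_fst)) (Set.to_countable _).measurableSet).inter
      (measurable_snd (measurableSet_mem_occ X' W' z))

theorem measurableSet_miss [Countable β] [MeasurableSingletonClass β] [Countable β']
    [MeasurableSingletonClass β'] (n : ℕ) (u : Site d) :
    MeasurableSet (miss X W X' W' n u) :=
  (measurableSet_hit X W X' W' 0 n u).compl

end Vale.Agent.P147.Three
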