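import Vale.Agent.P147.Three.Cuts
import Vale.Agent.P147.Speed.Coins
import Vale.Agent.P147.Speed.Reduce

/-!
P147, at most one nonzero velocity in dimension at least three: a flat first block ahead of the tip
moves the start one level down and anywhere aside, so from every such start the missing
probabilities are dominated by the avoidance probabilities.
-/

open MeasureTheory Filter Finset
open scoped ENNReal Topology

namespace Vale.Agent.P147.Three

open Vale.Agent.P147.Cond Vale.Agent.P147.Speed Vale.Agent.P147.Dir Vale.Agent.P147.Dir.Blocks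
  Vale.Agent.P147.Glue

section Forced

variable {d : ℕ} {β : Type*} [MeasurableSpace β] [MeasurableSingletonClass β] [Countable β]
  {β' : Type*} [MeasurableSpace β'] [MeasurableSingletonClass β'] [Countable β']
  (ν : Measure β) [IsProbabilityMeasure ν] (ν' : Measure β') [IsProbabilityMeasure ν']

omit [Countable β] [MeasurableSingletonClass β] [Countable β'] in
/-- A forced first piece of the second sequence costs its mass. -/
theorem forced_eq (g : β') {E : Set ((ℕ → β) × (ℕ → β'))} (hE : MeasurableSet E) :
    ν' {g} * ((iid ν).prod (iid ν')) E =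
      ((iid ν).prod (iid ν')) {x | (x.1, after 1 x.2) ∈ E ∧ x.2 0 = g} := by
  by_cases hg : ν' {g} = 0
  · rw [hg, zero_mul]
    refine (le_antisymm ?_ bot_le).symm
    refine (measure_mono (t := Prod.snd ⁻¹' (begins 1 fun _ => g)) ?_).trans ?_
    · rintro x ⟨-, hx⟩ i hi
      rw [Nat.lt_one_iff.1 hi]
      exact hx
    · rw [← Set.univ_prod, Measure.prod_prod, iid_begins, prod_range_one, hg, mul_zero]
      exact bot_le
  · have hm : Measurable (Prod.map (id : (ℕ → β) → ℕ → β) (after 1 : (ℕ → β') → ℕ → β')) :=
      measurable_id.prodMap (measurable_after 1)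
    have hset : {x : (ℕ → β) × (ℕ → β') | (x.1, after 1 x.2) ∈ E ∧ x.2 0 = g} =
        Prod.map id (after 1) ⁻¹' E ∩ Set.univ ×ˢ begins 1 fun _ => g := by
      ext x
      simp [begins, Prod.map]
    rw [hset, ← Measure.restrict_apply (hm hE), ← Measure.map_apply hm hE,
      ← Measure.prod_restrict, ← Measure.map_prod_map _ _ measurable_id (measurable_after 1),
      map_after ν' 1 _ (fun _ _ => hg), Measure.restrict_univ, Measure.map_id,
      Measure.prod_smul_right, Measure.smul_apply, smul_eq_mul, iid_begins, prod_range_one]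

omit [MeasurableSpace β'] [MeasurableSingletonClass β'] [Countable β'] in
theorem occ_head (X' : β' → Site d) (W' : β' → Finset (Site d)) (c : ℕ → β') {z : Site d}
    (hz : z ∈ Occ X' W' c) :
    z ∈ W' (c 0) ∨ ∃ z' ∈ Occ X' W' (after 1 c), z = X' (c 0) + z' := by
  obtain ⟨q, w, hw, rfl⟩ := hz
  rcases q with _ | q
  · exact Or.inl (by simpa using hw)
  · refine Or.inr ⟨_, ⟨q, w, by rwa [after, add_comm], rfl⟩, ?_⟩
    rw [sum_range_succ', ← add_assoc, add_comm (X' (c 0))]
    simp only [after, add_comm 1]

end Forced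

variable {d k : ℕ} [NeZero k] (v : Fin k → Site d) (μ : Measure (Row k)) [IsProbabilityMeasure μ]

omit [NeZero k] in
/-- A flat site is the sum of a word of flat steps. -/
theorem exists_flat_word (hunit : ∀ j, (∃ i, v i = Pi.single j 1) ∧ ∃ i, v i = Pi.single j (-1))
    (a : Fin d) {x : Site d} (hx : x a = 0) :
    ∃ w : List (Fin k), (w.map v).sum = x ∧ ∀ i ∈ w, v i a = 0 := by
  classical
  choose ip hip using fun j => (hunit j).1
  choose im him using fun j => (hunit j).2
  have hone : ∀ j : Fin d, ∃ w : List (Fin k), (w.map v).sum = Pi.single j (x j) ∧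
      ∀ i ∈ w, v i a = 0 := by
    intro j
    by_cases hja : j = a
    · exact ⟨[], by simp [hja, hx], by simp⟩
    refine ⟨List.replicate (x j).toNat (ip j) ++ List.replicate (-x j).toNat (im j), ?_, ?_⟩
    · simp only [List.map_append, List.map_replicate, List.sum_append, List.sum_replicate, hip,
        him]
      funext q
      by_cases hq : q = j
      · subst hq; simp; omega
      · simp [hq]
    · intro i hi'
      rcases List.mem_append.1 hi' with h | h <;> rw [List.eq_of_mem_replicate h]
      · rw [hip, Pi.single_eq_of_ne (Ne.symm hja)]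
      · rw [him, Pi.single_eq_of_ne (Ne.symm hja)]
  choose w hw hw0 using hone
  have : ∀ S : Finset (Fin d), ∃ u : List (Fin k),
      (u.map v).sum = ∑ j ∈ S, Pi.single j (x j) ∧ ∀ i ∈ u, v i a = 0 := by
    intro S
    induction S using Finset.induction with
    | empty => exact ⟨[], by simp, by simp⟩
    | @insert j S hj ih =>
      obtain ⟨u, hu, hu0⟩ := ih
      exact ⟨w j ++ u, by simp [sum_insert hj, hu, hw],
        fun i hi' => (List.mem_append.1 hi').elim (hw0 j i) (hu0 i)⟩
  obtain ⟨u, hu, hu0⟩ := this univ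
  exact ⟨u, hu.trans (univ_sum_single x), hu0⟩

omit [NeZero k] in
theorem sh_flat (l : Fin d → ℤ) {w : List (Fin k)} (h : ∀ i ∈ w, hi l (v i) = 0) (j : ℕ) :
    sh v l w j = 0 := by
  refine List.sum_eq_zero fun y hy => ?_
  obtain ⟨i, hi', rfl⟩ := List.mem_map.1 hy
  exact h i (List.mem_of_mem_take hi')

/-- A block whose sites before the end are flat and which ends one step higher, anywhere aside. -/
theorem exists_flat_block (hell : ∀ i, ∀ᵐ p ∂μ, 0 < (p : Row k).1 i)
    (hunit : ∀ j, (∃ i, v i = Pi.single j 1) ∧ ∃ i, v i = Pi.single j (-1))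
    {a : Fin d} {s : ℤ} (hs : s = 1 ∨ s = -1)
    (hh : law v μ (StayUp v (dot fun j => ((Pi.single a s : Fin d → ℤ) j : ℝ))) ≠ 0)
    (u : Site d) (hu : hi (Pi.single a s) u = 1) :
    ∃ g : Blk k, disp v g = u ∧ (∀ w ∈ futW v g, hi (Pi.single a s) w = 0) ∧
      (upLaw v μ (dot fun j => ((Pi.single a s : Fin d → ℤ) j : ℝ))).map
        (blk0 v (dot fun j => ((Pi.single a s : Fin d → ℤ) j : ℝ))) {g} ≠ 0 := by
  have hval : ∀ x : Site d, hi (Pi.single a s) x = s * x a := fun x => by
    simp [hi, Pi.single_apply]
  obtain ⟨i', hi'⟩ : ∃ i, v i = Pi.single a s := by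
    rcases hs with rfl | rfl
    exacts [(hunit a).1, (hunit a).2]
  have hx : (u - Pi.single a s : Site d) a = 0 := by
    rw [hval] at hu
    rcases hs with rfl | rfl <;> simp <;> linarith
  obtain ⟨w, hw, hw0⟩ := exists_flat_word v hunit a hx
  have hflat : ∀ i ∈ w, hi (Pi.single a s) (v i) = 0 := fun i h => by
    rw [hval, hw0 i h, mul_zero]
  have hup : 0 < hi (Pi.single a s) (v i') := by
    rw [hval, hi']
    rcases hs with rfl | rfl <;> simp
  refine ⟨(w ++ [i'] : List (Fin k)), ?_, fun z hz => ?_,
    valid_ne_zero v μ _ hell hh (valid_append v (Pi.single a s) (H := 0) (p := 0) (q := 0)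
      (fun j => by rw [sh_flat v _ hflat]; exact ⟨le_rfl, le_rfl⟩) (sh_zero v _ _) (sh_zero v _ _)
      le_rfl (Nat.zero_le _) (sh_flat v _ hflat _) hup)⟩
  · simp [disp, bpos, blen, hw, hi', List.take_of_length_le]
  · obtain ⟨j, hj, rfl⟩ := mem_image.1 hz
    have hj' : j ≤ w.length := by
      simp [blen, mem_range] at hj
      omega
    simp only [bpos, List.take_append_of_le_length hj', map_list_sum, List.map_map]
    refine List.sum_eq_zero fun y hy => ?_
    obtain ⟨i, hi'', rfl⟩ := List.mem_map.1 hy
    exact hflat i (List.mem_of_mem_take hi'')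

variable (ht : Site d →+ ℝ)

/-- The past at a regeneration uses only as many reversed blocks as the regeneration index. -/
theorem past_subset_head {t : ℕ → Fin k} (h : Regular v ht t) (n : ℕ) :
    Glue.Past v ht n t ⊆ headOcc (fun b => -disp v b) (pastW v) n
      fun i => block v ht (if i < n then n - 1 - i else i) t := by
  have hsum : ∀ q ≤ n,
      ∑ p ∈ range q, -disp v (block v ht (if p < n then n - 1 - p else p) t) =
        pos v t (regTime v ht (n - q) t) - pos v t (regTime v ht n t) := by
    intro q hq
    induction q with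
    | zero => simp
    | succ q ih =>
      rw [sum_range_succ, ih (by omega), if_pos (by omega : q < n), disp_block h,
        show n - 1 - q + 1 = n - q by omega, show n - 1 - q = n - (q + 1) by omega]
      abel
  rintro z ⟨m, hm, rfl⟩
  obtain ⟨j, h1, h2⟩ := h.exists_block m
  have hj : j < n := by
    by_contra hc
    exact absurd (lt_of_le_of_lt h1 hm) (not_lt.2 (h.strictMono.monotone (not_lt.1 hc)))
  have hlen : m - regTime v ht j t < blen (block v ht j t) := by rw [(h.2 j).2.2.2.1]; omega
  refine ⟨n - 1 - j, by omega,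
    bpos v (block v ht j t) (m - regTime v ht j t) - disp v (block v ht j t), ?_, ?_⟩
  · dsimp only
    rw [if_pos (by omega), show n - 1 - (n - 1 - j) = j by omega]
    exact mem_image_of_mem _ (mem_range.2 hlen)
  · rw [start, hsum _ (by omega), show n - (n - 1 - j) = j + 1 by omega,
      (h.2 j).2.2.2.2 _ hlen.le, Nat.add_sub_cancel' h1, disp_block h]
    abel

/-- The first `n` reversed blocks miss the whole path ahead. -/
def missFut (n : ℕ) : Set ((ℕ → Blk k) × (ℕ → Blk k)) :=
  {x | Disjoint (headOcc (fun b => -disp v b) (pastW v) n x.1) (futOcc v x.2)}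

omit [NeZero k] in
theorem measurableSet_missFut (n : ℕ) : MeasurableSet (missFut v n) := by
  have e : missFut v n = miss (fun b => -disp v b) (pastW v) (disp v) (futW v) n 0 := by
    ext x
    simp only [missFut, miss, hit, headOcc, futOcc, Set.disjoint_left, Set.mem_ofPred_eq,
      Set.mem_compl_iff, not_exists, not_and, zero_add]
    exact ⟨fun hd q _ hq w hw z hz he => hd ⟨q, hq, w, hw, rfl⟩ (he ▸ hz),
      fun hd z ⟨q, hq, w, hw, he⟩ hz => hd q (Nat.zero_le _) hq w hw z hz he⟩
  rw [e]
  exact measurableSet_miss _ _ _ _ n 0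

/-- The avoidance probability dominates that finitely many reversed blocks miss the blocks ahead. -/
theorem missFut_le_avoidProb (hh : law v μ (StayUp v ht) ≠ 0)
    (hh' : law v μ (StayUp v (-ht)) ≠ 0)
    {ν ν' : Measure (Blk k)} [IsProbabilityMeasure ν] [IsProbabilityMeasure ν']
    (hν : (upLaw v μ ht).map (fun t i => block v ht i t) = Measure.infinitePi (fun _ : ℕ => ν))
    (hν' : (upLaw v μ (-ht)).map (fun t i => block v (-ht) i t) =
      Measure.infinitePi (fun _ : ℕ => ν'))
    (n : ℕ) : ((iid ν).prod (iid ν')) (missFut v n) ≤ avoidProb v μ ht n := by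
  have := isProb_upLaw v μ ht hh
  have := isProb_upLaw v μ (-ht) hh'
  set σ : ℕ → ℕ := fun i => if i < n then n - 1 - i else i with hσdef
  have hσ : Function.Injective σ := fun a b hab => by
    simp only [hσdef] at hab
    split_ifs at hab <;> omega
  have hΦ : Measurable fun (t : ℕ → Fin k) (i : ℕ) => block v ht i t :=
    measurable_pi_lambda _ fun i => measurable_block v ht i
  have hΦσ : Measurable fun (t : ℕ → Fin k) (i : ℕ) => block v ht (σ i) t :=
    measurable_pi_lambda _ fun i => measurable_block v ht (σ i)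
  have hΦ' : Measurable fun (t : ℕ → Fin k) (i : ℕ) => block v (-ht) i t :=
    measurable_pi_lambda _ fun i => measurable_block v (-ht) i
  have hmp := measurePreserving_reindex ν hσ
  have hrev : (upLaw v μ ht).map (fun t i => block v ht (σ i) t) =
      Measure.infinitePi fun _ : ℕ => ν := by
    conv_rhs => rw [← hmp.map_eq, ← hν, Measure.map_map hmp.measurable hΦ]
    rfl
  rw [iid, iid, ← hrev, ← hν', Measure.map_prod_map _ _ hΦσ hΦ',
    Measure.map_apply (hΦσ.prodMap hΦ') (measurableSet_missFut v n), avoidProb]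
  refine measure_mono_ae ?_
  filter_upwards [Measure.quasiMeasurePreserving_fst.ae (regTime_reg v μ ht hh),
    Measure.quasiMeasurePreserving_snd.ae (regTime_reg v μ (-ht) hh')] with x hr hr'
  intro hd m hm
  exact Set.disjoint_left.1 hd (past_subset_head v ht hr n hm) (pos_mem_futOcc hr' m)

omit [NeZero k] in
/-- With a flat first block ahead, missing from its end gives missing. -/
theorem forced_missFut_le {ν ν' : Measure (Blk k)} [IsProbabilityMeasure ν]
    [IsProbabilityMeasure ν'] (h : Site d →+ ℤ)
    (hB : Behind ν (fun b => -disp v b) (pastW v) h) (g : Blk k)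
    (hg : ∀ w ∈ futW v g, h w = 0) (n : ℕ) :
    ν' {g} * D ν (fun b => -disp v b) (pastW v) ν' (disp v) (futW v) (disp v g) n ≤
      ((iid ν).prod (iid ν')) (missFut v n) := by
  rw [D, forced_eq ν ν' g (measurableSet_miss _ _ _ _ _ _)]
  refine measure_mono_ae ?_
  filter_upwards [Measure.quasiMeasurePreserving_fst.ae (ae_all_iff.2 fun i =>
    (measurePreserving_eval_infinitePi (fun _ : ℕ => ν) i).quasiMeasurePreserving.ae hB)] with x hx
  rintro ⟨hm, hx0⟩
  refine Set.disjoint_left.2 fun z hz hz' => ?_
  obtain ⟨q, hq, w, hw, rfl⟩ := hz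
  rcases occ_head _ _ _ hz' with h1 | ⟨z', h1, he⟩
  · rw [hx0] at h1
    have h2 := hg _ h1
    rw [map_add] at h2
    have h3 := ((hx q).2 w hw).2
    have h4 : h (start (fun b => -disp v b) x.1 q) ≤ 0 := by
      rw [start, map_sum]
      exact sum_nonpos fun p _ => (hx p).1.le
    omega
  · rw [hx0] at he
    exact hm ⟨q, Nat.zero_le _, hq, w, hw, z', h1, he⟩

end Vale.Agent.P147.Three
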