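import Vale.Agent.P147.Three.Split

/-!
P147, at most one nonzero velocity in dimension at least three: if meetings in dyadic ranges of
indices are rare, uniformly in offsets of linear size, then from a start one level below the tip
and far aside the probabilities of missing are not summable.
-/

open MeasureTheory Filter Finset
open scoped ENNReal Topology

namespace Vale.Agent.P147.Three

open Vale.Agent.P147.Cond Vale.Agent.P147.Speed

variable {d : ℕ} {β : Type*} {β' : Type*} (X : β → Site d) (W : β → Finset (Site d))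
  (X' : β' → Site d) (W' : β' → Finset (Site d)) (h : Site d →+ ℤ)

/-- One of the first `n` pieces meets one of the first `J` pieces of the translate. -/
def hitF (n J : ℕ) (u : Site d) : Set ((ℕ → β) × (ℕ → β')) :=
  {x | ∃ q < n, ∃ w ∈ W (x.1 q), ∃ j < J, ∃ w' ∈ W' (x.2 j),
    start X x.1 q + w = u + (start X' x.2 j + w')}

/-- Neither concatenation has dropped too fast after `2 ^ t` and `A 2 ^ t` pieces. -/
def slow (A t : ℕ) : Set ((ℕ → β) × (ℕ → β')) :=
  {x | -((A : ℤ) * (2 ^ t : ℕ)) ≤ h (start X x.1 (2 ^ t)) ∧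
    -((A : ℤ) * (A * 2 ^ t : ℕ)) ≤ h (start X' x.2 (A * 2 ^ t))}

/-- Slow from scale `t₁` to `t` and no meeting up to scale `t`. -/
def goodUpTo (A t₁ t : ℕ) (u : Site d) : Set ((ℕ → β) × (ℕ → β')) :=
  {x | (∀ s, t₁ ≤ s → s ≤ t → x ∈ slow X X' h A s) ∧ x ∉ hitF X W X' W' (2 ^ t) (A * 2 ^ t) u}

theorem hitF_congr {n J : ℕ} {u : Site d} {K L : ℕ} {x y : (ℕ → β) × (ℕ → β')}
    (hy : ∀ i < K, y.1 i = x.1 i) (hy' : ∀ i < L, y.2 i = x.2 i) (hn : n ≤ K) (hJ : J ≤ L)
    (hx : x ∈ hitF X W X' W' n J u) : y ∈ hitF X W X' W' n J u := by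
  obtain ⟨q, hq, w, hw, j, hj, w', hw', he⟩ := hx
  refine ⟨q, hq, w, by rwa [hy q (hq.trans_le hn)], j, hj, w',
    by rwa [hy' j (hj.trans_le hJ)], ?_⟩
  rw [show start X y.1 q = start X x.1 q from
      sum_congr rfl fun i hi => by rw [hy i ((mem_range.1 hi).trans_le (hq.le.trans hn))],
    show start X' y.2 j = start X' x.2 j from
      sum_congr rfl fun i hi => by rw [hy' i ((mem_range.1 hi).trans_le (hj.le.trans hJ))]]
  exact he

theorem slow_congr {A s : ℕ} {K L : ℕ} {x y : (ℕ → β) × (ℕ → β')}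
    (hy : ∀ i < K, y.1 i = x.1 i) (hy' : ∀ i < L, y.2 i = x.2 i) (hn : 2 ^ s ≤ K)
    (hJ : A * 2 ^ s ≤ L) (hx : x ∈ slow X X' h A s) : y ∈ slow X X' h A s := by
  simp only [slow, Set.mem_ofPred_eq] at hx ⊢
  rwa [show start X y.1 (2 ^ s) = start X x.1 (2 ^ s) from
      sum_congr rfl fun i hi => by rw [hy i ((mem_range.1 hi).trans_le hn)],
    show start X' y.2 (A * 2 ^ s) = start X' x.2 (A * 2 ^ s) from
      sum_congr rfl fun i hi => by rw [hy' i ((mem_range.1 hi).trans_le hJ)]]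

/-- Drops and the places of the sites, for both sequences. -/
def regularPair (x : (ℕ → β) × (ℕ → β')) : Prop :=
  (∀ i, h (X (x.1 i)) < 0 ∧ ∀ w ∈ W (x.1 i), h (X (x.1 i)) ≤ h w ∧ h w < 0) ∧
    ∀ i, h (X' (x.2 i)) < 0 ∧ ∀ w ∈ W' (x.2 i), h (X' (x.2 i)) < h w ∧ h w ≤ 0

theorem start_le_sub {s : ℕ → β} (hs : ∀ i, h (X (s i)) < 0) {m n : ℕ} (hmn : m ≤ n) :
    h (start X s n) ≤ h (start X s m) - ((n - m : ℕ) : ℤ) := by
  induction n with
  | zero => simp [show m = 0 by omega]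
  | succ n ih =>
    rcases hmn.eq_or_lt with rfl | h'
    · simp
    · have := ih (by omega)
      simp only [start, sum_range_succ, map_add] at this ⊢
      have := hs n
      omega

variable {X W X' W' h}

/-- Under slowness at scale `t` a meeting of the first `2 ^ t` pieces involves only the first
`A 2 ^ t` pieces of the translate. -/
theorem mem_hitF {x : (ℕ → β) × (ℕ → β')} (hx : regularPair X W X' W' h x) {A t : ℕ}
    (hs : x ∈ slow X X' h A t) {u : Site d} (hu : h u = -1)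
    (hh : x ∈ hit X W X' W' 0 (2 ^ t) u) : x ∈ hitF X W X' W' (2 ^ t) (A * 2 ^ t) u := by
  obtain ⟨q, -, hq, w, hw, z, ⟨j, w', hw', rfl⟩, he⟩ := hh
  refine ⟨q, hq, w, hw, j, not_le.1 fun hj => ?_, w', hw', he⟩
  have h1 := congrArg h he
  simp only [map_add] at h1
  change h (start X x.1 q) + h w = h u + (h (start X' x.2 j) + h w') at h1
  have h2 := ((hx.2 j).2 w' hw').2
  have h3 := start_le_sub X' h (fun i => (hx.2 i).1) (Nat.zero_le j)
  have h4 := ((hx.1 q).2 w hw).1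
  have h5 := start_le_sub X h (fun i => (hx.1 i).1) (Nat.succ_le_of_lt hq)
  have h6 : h (start X x.1 (q + 1)) = h (start X x.1 q) + h (X (x.1 q)) := by
    simp [start, sum_range_succ]
  have h7 := hs.1
  simp only [start, range_zero, sum_empty, map_zero, Nat.sub_zero] at h3
  have h8 : ((A * 2 ^ t : ℕ) : ℤ) ≤ j := by exact_mod_cast hj
  simp only [Nat.succ_eq_add_one] at h5
  simp only [start] at *
  push_cast at *
  omega

variable [MeasurableSpace β] [MeasurableSingletonClass β] [Countable β]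
  [MeasurableSpace β'] [MeasurableSingletonClass β'] [Countable β']
  (ν : Measure β) [IsProbabilityMeasure ν] (ν' : Measure β') [IsProbabilityMeasure ν']

theorem measurableSet_hitF (n J : ℕ) (u : Site d) : MeasurableSet (hitF X W X' W' n J u) := by
  have e : hitF X W X' W' n J u = ⋃ (q : ℕ) (j : ℕ),
      (fun x : (ℕ → β) × (ℕ → β') => ((start X x.1 q, x.1 q), (start X' x.2 j, x.2 j))) ⁻¹'
        {p | q < n ∧ j < J ∧ ∃ w ∈ W p.1.2, ∃ w' ∈ W' p.2.2, p.1.1 + w = u + (p.2.1 + w')} := by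
    ext x
    simp only [hitF, Set.mem_iUnion, Set.mem_preimage, Set.mem_ofPred_eq]
    exact ⟨fun ⟨q, hq, w, hw, j, hj, w', hw', he⟩ => ⟨q, j, hq, hj, w, hw, w', hw', he⟩,
      fun ⟨q, j, hq, hj, w, hw, w', hw', he⟩ => ⟨q, hq, w, hw, j, hj, w', hw', he⟩⟩
  rw [e]
  exact .iUnion fun q => .iUnion fun j =>
    ((((measurable_start X q).comp measurable_fst).prodMk
      ((measurable_pi_apply q).comp measurable_fst)).prodMk
      (((measurable_start X' j).comp measurable_snd).prodMk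
        ((measurable_pi_apply j).comp measurable_snd))) (Set.to_countable _).measurableSet

theorem measurableSet_slow (A t : ℕ) : MeasurableSet (slow X X' h A t) :=
  (((measurable_start X (2 ^ t)).comp measurable_fst)
      (Set.to_countable {y : Site d | -((A : ℤ) * (2 ^ t : ℕ)) ≤ h y}).measurableSet).inter
    (((measurable_start X' (A * 2 ^ t)).comp measurable_snd)
      (Set.to_countable {y : Site d | -((A : ℤ) * (A * 2 ^ t : ℕ)) ≤ h y}).measurableSet)

/-- A fresh piece of the first concatenation meets the translate after `A K` pieces. -/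
def late (A L K : ℕ) (u : Site d) : Set ((ℕ → β) × (ℕ → β')) :=
  {x | drop2 K (A * K) x ∈ hit X W X' W' ((2 ^ L - 1) * K) (2 ^ (L + 1) * K)
    (u + start X' x.2 (A * K) - start X x.1 K)}

omit [MeasurableSpace β] [MeasurableSingletonClass β] [Countable β] [MeasurableSpace β']
  [MeasurableSingletonClass β'] [Countable β'] in
/-- Leaving the good event takes a fast piece of the increments or a meeting of fresh pieces. -/
theorem leave {A L t₁ t : ℕ} {u : Site d} (hL : A * A + 1 ≤ 2 ^ L) (hu : h u = -1)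
    (ht : t₁ + L ≤ t) {x : (ℕ → β) × (ℕ → β')} (hx : regularPair X W X' W' h x)
    (hxt : x ∈ goodUpTo X W X' W' h A t₁ t u) :
    x ∈ goodUpTo X W X' W' h A t₁ (t + 1) u ∨
      h (start X (after (2 ^ (t - L)) x.1) (2 ^ (t + 1) - 2 ^ (t - L))) <
        -((A : ℤ) * (2 ^ (t + 1) - 2 ^ (t - L) : ℕ)) ∨
      h (start X' (after (A * 2 ^ (t - L)) x.2) (A * 2 ^ (t + 1) - A * 2 ^ (t - L))) <
        -((A : ℤ) * (A * 2 ^ (t + 1) - A * 2 ^ (t - L) : ℕ)) ∨
      x ∈ late (X := X) (W := W) (X' := X') (W' := W') A L (2 ^ (t - L)) u := by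
  have hKt : 2 ^ L * 2 ^ (t - L) = 2 ^ t := by rw [← pow_add]; congr 1; omega
  have hK1 : 1 ≤ 2 ^ (t - L) := Nat.one_le_two_pow
  generalize hK : 2 ^ (t - L) = K at *
  have hKle : K ≤ 2 ^ t := by rw [← hK]; exact Nat.pow_le_pow_right (by omega) (by omega)
  have hsl : x ∈ slow X X' h A (t - L) := hxt.1 (t - L) (by omega) (by omega)
  obtain ⟨hsl1, hsl2⟩ := hsl
  rw [hK] at hsl1 hsl2
  have hslt : x ∈ slow X X' h A t := hxt.1 t (by omega) le_rfl
  by_cases hsucc : x ∈ slow X X' h A (t + 1)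
  · by_cases hnew : x ∈ hitF X W X' W' (2 ^ (t + 1)) (A * 2 ^ (t + 1)) u
    · obtain ⟨q, hq, w, hw, j, hj, w', hw', he⟩ := hnew
      have hqt : 2 ^ t ≤ q := not_lt.1 fun hqt => hxt.2 <| mem_hitF hx hslt hu
        ⟨q, Nat.zero_le _, hqt, w, hw, _, ⟨j, w', hw', rfl⟩, he⟩
      have hjK : A * K ≤ j := by
        by_contra hlt
        have h1 : h (start X x.1 q) + h w = h u + (h (start X' x.2 j) + h w') := by
          simpa only [map_add] using congrArg h he
        have h2 := ((hx.1 q).2 w hw).2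
        have h3 : h (start X x.1 q) ≤ -(q : ℤ) := by
          simpa [start] using start_le_sub X h (fun i => (hx.1 i).1) (Nat.zero_le q)
        have h4 := ((hx.2 j).2 w' hw').1
        have h5 := start_le_sub X' h (fun i => (hx.2 i).1) (Nat.succ_le_of_lt (not_le.1 hlt))
        rw [Nat.succ_eq_add_one, start_succ, map_add] at h5
        have h8 : ((A : ℤ) * A + 1) * K ≤ q := by
          exact_mod_cast ((Nat.mul_le_mul_right _ hL).trans hKt.le).trans hqt
        have hK' : (1 : ℤ) ≤ K := by exact_mod_cast hK1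
        have h9 : -((A : ℤ) * (A * K)) ≤ h (start X' x.2 (A * K)) := by exact_mod_cast hsl2
        have h10 : (0 : ℤ) ≤ ((A * K - (j + 1) : ℕ) : ℤ) := Int.natCast_nonneg _
        linarith
      refine Or.inr (Or.inr (Or.inr ?_))
      obtain ⟨q', rfl⟩ := Nat.exists_eq_add_of_le (hKle.trans hqt)
      obtain ⟨j', rfl⟩ := Nat.exists_eq_add_of_le hjK
      refine ⟨q', ?_, ?_, w, hw, _, ⟨j', w', hw', rfl⟩, ?_⟩
      · rw [Nat.sub_mul, hKt, one_mul]; omega
      · rw [pow_succ] at hq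
        rw [pow_succ, mul_right_comm, hKt]; omega
      · rw [start_add, start_add] at he
        simp only [drop2]
        rw [show (∑ p ∈ range j', X' (after (A * K) x.2 p)) =
          start X' (after (A * K) x.2) j' from rfl]
        rw [add_assoc] at he
        rw [eq_sub_of_add_eq' he]
        abel
    · exact Or.inl ⟨fun s a b => (Nat.lt_succ_iff_lt_or_eq.1 (Nat.lt_succ_of_le b)).elim
        (fun c => hxt.1 s a (by omega)) (fun c => c ▸ hsucc), hnew⟩
  · have hK2 : K ≤ 2 ^ (t + 1) := by rw [pow_succ]; omega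
    have hJ2 : A * K ≤ A * 2 ^ (t + 1) := Nat.mul_le_mul_left _ hK2
    have e1 := start_add X x.1 K (2 ^ (t + 1) - K)
    have e2 := start_add X' x.2 (A * K) (A * 2 ^ (t + 1) - A * K)
    rw [Nat.add_sub_cancel' hK2] at e1
    rw [Nat.add_sub_cancel' hJ2] at e2
    simp only [slow, Set.mem_ofPred_eq, not_and_or, not_le, e1, e2, map_add] at hsucc
    refine Or.inr (hsucc.imp (fun hlt => ?_) fun hlt => Or.inl ?_)
    · push_cast [Nat.cast_sub hK2] at hsl1 hlt ⊢
      linarith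
    · push_cast [Nat.cast_sub hJ2] at hsl2 hlt ⊢
      linarith

omit [MeasurableSpace β] [MeasurableSingletonClass β] [Countable β] [MeasurableSpace β']
  [MeasurableSingletonClass β'] [Countable β'] in
theorem cyl_subset_goodUpTo {A t₁ s K J : ℕ} {u : Site d} (hK : 2 ^ s ≤ K) (hJ : A * 2 ^ s ≤ J)
    {x : (ℕ → β) × (ℕ → β')} (hx : x ∈ goodUpTo X W X' W' h A t₁ s u) :
    cyl K J x ⊆ goodUpTo X W X' W' h A t₁ s u := fun y hy =>
  ⟨fun r hr1 hr2 => slow_congr X X' h hy.1 hy.2 ((Nat.pow_le_pow_right (by omega) hr2).trans hK)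
      ((Nat.mul_le_mul_left _ (Nat.pow_le_pow_right (by omega) hr2)).trans hJ) (hx.1 r hr1 hr2),
    fun hy' => hx.2 (hitF_congr X W X' W' (fun i hi => (hy.1 i hi).symm)
      (fun i hi => (hy.2 i hi).symm) hK hJ hy')⟩

/-- Fresh meetings are rare on the good event. -/
theorem late_le {A L K t₁ s : ℕ} {u : Site d} {θ : ℝ≥0∞} (hu : h u = -1)
    (hK : K = 2 ^ s) (hs : t₁ ≤ s)
    (hreg : ∀ᵐ x ∂((iid ν).prod (iid ν')), regularPair X W X' W' h x)
    (hmeet : ∀ u', |h u'| ≤ (((A * A + A + 1) * K : ℕ) : ℤ) →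
      ((iid ν).prod (iid ν')) (hit X W X' W' ((2 ^ L - 1) * K) (2 ^ (L + 1) * K) u') ≤ θ) :
    ((iid ν).prod (iid ν')) (late (X := X) (W := W) (X' := X') (W' := W') A L K u ∩
        goodUpTo X W X' W' h A t₁ s u) ≤
      θ * ((iid ν).prod (iid ν')) (goodUpTo X W X' W' h A t₁ s u) := by
  refine le_trans (measure_mono_ae ?_) (split_le ν ν' K (A * K)
    (E := late (X := X) (W := W) (X' := X') (W' := W') A L K u ∩
      {x | h (start X x.1 K) ≤ 0 ∧ h (start X' x.2 (A * K)) ≤ 0})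
    (fun x hx => cyl_subset_goodUpTo hK.ge (by rw [hK]) hx) fun x hx => ?_)
  · filter_upwards [hreg] with x hx hxE
    refine ⟨⟨hxE.1, ?_, ?_⟩, hxE.2⟩
    · have := start_le_sub X h (fun i => (hx.1 i).1) (Nat.zero_le K)
      simp only [start, range_zero, sum_empty, map_zero, Nat.sub_zero] at this ⊢
      omega
    · have := start_le_sub X' h (fun i => (hx.2 i).1) (Nat.zero_le (A * K))
      simp only [start, range_zero, sum_empty, map_zero, Nat.sub_zero] at this ⊢
      omega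
  · by_cases hneg : h (start X x.1 K) ≤ 0 ∧ h (start X' x.2 (A * K)) ≤ 0
    · set u' := u + start X' x.2 (A * K) - start X x.1 K with hu'
      refine ⟨_, measurableSet_hit X W X' W' _ _ u', hmeet u' ?_, fun y hy hyE => ?_⟩
      · obtain ⟨h1, h2⟩ := hx.1 s hs le_rfl
        rw [← hK] at h1 h2
        have hK1 : (1 : ℤ) ≤ K := by rw [hK]; exact_mod_cast Nat.one_le_two_pow
        simp only [hu', map_sub, map_add, hu, abs_le]
        push_cast at h1 h2 ⊢
        constructor <;> nlinarith [hneg.1, hneg.2, mul_nonneg (mul_nonneg (Int.natCast_nonneg A)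
          (Int.natCast_nonneg A)) (Int.natCast_nonneg K),
          mul_nonneg (Int.natCast_nonneg A) (Int.natCast_nonneg K)]
      · have h3 := hyE.1
        simp only [late, Set.mem_ofPred_eq] at h3
        rwa [show start X y.1 K = start X x.1 K from
            sum_congr rfl fun i hi => by rw [hy.1 i (mem_range.1 hi)],
          show start X' y.2 (A * K) = start X' x.2 (A * K) from
            sum_congr rfl fun i hi => by rw [hy.2 i (mem_range.1 hi)]] at h3
    · refine ⟨∅, MeasurableSet.empty, by simp, fun y hy hyE => hneg ?_⟩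
      have h3 := hyE.2
      simp only [Set.mem_ofPred_eq] at h3
      rwa [show start X y.1 K = start X x.1 K from
          sum_congr rfl fun i hi => by rw [hy.1 i (mem_range.1 hi)],
        show start X' y.2 (A * K) = start X' x.2 (A * K) from
          sum_congr rfl fun i hi => by rw [hy.2 i (mem_range.1 hi)]] at h3

theorem fresh_fst_le {K J : ℕ} {S : Set ((ℕ → β) × (ℕ → β'))} {θ : ℝ≥0∞} {B : Set (ℕ → β)}
    (hB : MeasurableSet B) (hθ : iid ν B ≤ θ) (hS : ∀ x ∈ S, cyl K J x ⊆ S) :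
    ((iid ν).prod (iid ν')) (drop2 K J ⁻¹' (Prod.fst ⁻¹' B) ∩ S) ≤
      θ * ((iid ν).prod (iid ν')) S :=
  split_le ν ν' K J hS fun _ _ => ⟨Prod.fst ⁻¹' B, measurable_fst hB,
    by rwa [← Set.prod_univ, Measure.prod_prod, measure_univ, mul_one], fun _ _ hy => hy⟩

theorem fresh_snd_le {K J : ℕ} {S : Set ((ℕ → β) × (ℕ → β'))} {θ : ℝ≥0∞} {B : Set (ℕ → β')}
    (hB : MeasurableSet B) (hθ : iid ν' B ≤ θ) (hS : ∀ x ∈ S, cyl K J x ⊆ S) :
    ((iid ν).prod (iid ν')) (drop2 K J ⁻¹' (Prod.snd ⁻¹' B) ∩ S) ≤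
      θ * ((iid ν).prod (iid ν')) S :=
  split_le ν ν' K J hS fun _ _ => ⟨Prod.snd ⁻¹' B, measurable_snd hB,
    by rwa [← Set.univ_prod, Measure.prod_prod, measure_univ, one_mul], fun _ _ hy => hy⟩

/-- One step of the recursion. -/
theorem step {A L t₁ t : ℕ} {u : Site d} {θ : ℝ≥0∞} (hA0 : 0 < A) (hL : A * A + 1 ≤ 2 ^ L)
    (hu : h u = -1) (hreg : ∀ᵐ x ∂((iid ν).prod (iid ν')), regularPair X W X' W' h x)
    (hf : ∀ n, 2 ^ t ≤ n → iid ν {s | h (start X s n) < -((A : ℤ) * n)} ≤ θ)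
    (hf' : ∀ n, 2 ^ t ≤ n → iid ν' {s | h (start X' s n) < -((A : ℤ) * n)} ≤ θ)
    (hmeet : ∀ u', |h u'| ≤ (((A * A + A + 1) * 2 ^ (t - L) : ℕ) : ℤ) →
      ((iid ν).prod (iid ν'))
        (hit X W X' W' ((2 ^ L - 1) * 2 ^ (t - L)) (2 ^ (L + 1) * 2 ^ (t - L)) u') ≤ θ)
    (ht : t₁ + L ≤ t) :
    ((iid ν).prod (iid ν')) (goodUpTo X W X' W' h A t₁ t u) ≤
      ((iid ν).prod (iid ν')) (goodUpTo X W X' W' h A t₁ (t + 1) u) +
        (θ + θ + θ) * ((iid ν).prod (iid ν')) (goodUpTo X W X' W' h A t₁ (t - L) u) := by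
  have hKle : 2 ^ (t - L) ≤ 2 ^ t := Nat.pow_le_pow_right (by omega) (by omega)
  have hKK : 2 ^ (t + 1) = 2 ^ t * 2 := pow_succ _ _
  have hAt : 2 ^ t ≤ A * 2 ^ t := Nat.le_mul_of_pos_left _ hA0
  set K := 2 ^ (t - L) with hK
  set P := (iid ν).prod (iid ν') with hP
  set S := goodUpTo X W X' W' h A t₁ (t - L) u with hSdef
  set E1 : Set ((ℕ → β) × (ℕ → β')) := drop2 K (A * K) ⁻¹' (Prod.fst ⁻¹'
    {s | h (start X s (2 ^ (t + 1) - K)) < -((A : ℤ) * (2 ^ (t + 1) - K : ℕ))})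
  set E2 : Set ((ℕ → β) × (ℕ → β')) := drop2 K (A * K) ⁻¹' (Prod.snd ⁻¹'
    {s | h (start X' s (A * 2 ^ (t + 1) - A * K)) < -((A : ℤ) * (A * 2 ^ (t + 1) - A * K : ℕ))})
  set E3 := late (X := X) (W := W) (X' := X') (W' := W') A L K u
  have hS : ∀ x ∈ S, cyl K (A * K) x ⊆ S := fun x hx => cyl_subset_goodUpTo le_rfl le_rfl hx
  have b1 : P (E1 ∩ S) ≤ θ * P S := fresh_fst_le ν ν' (measurable_start X _
    (Set.to_countable {y : Site d | h y < -((A : ℤ) * (2 ^ (t + 1) - K : ℕ))}).measurableSet)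
    (hf _ (by omega)) hS
  have b2 : P (E2 ∩ S) ≤ θ * P S := by
    refine fresh_snd_le ν ν' (measurable_start X' _
      (Set.to_countable {y : Site d |
        h y < -((A : ℤ) * (A * 2 ^ (t + 1) - A * K : ℕ))}).measurableSet) (hf' _ ?_) hS
    have h1 : A * K ≤ A * 2 ^ t := Nat.mul_le_mul_left _ hKle
    rw [hKK, ← mul_assoc]
    omega
  have b3 : P (E3 ∩ S) ≤ θ * P S := late_le ν ν' hu hK (by omega) hreg hmeet
  have hcov : ∀ᵐ x ∂P, x ∈ goodUpTo X W X' W' h A t₁ t u →
      x ∈ goodUpTo X W X' W' h A t₁ (t + 1) u ∨ x ∈ (E1 ∪ E2 ∪ E3) ∩ S := by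
    filter_upwards [hreg] with x hx hxt
    have hxL : x ∈ S := ⟨fun s a b => hxt.1 s a (by omega), fun hh => hxt.2 <| by
      obtain ⟨q, hq, w, hw, j, hj, w', hw', he⟩ := hh
      exact ⟨q, hq.trans_le hKle, w, hw, j, hj.trans_le (Nat.mul_le_mul_left _ hKle), w', hw', he⟩⟩
    rcases leave hL hu ht hx hxt with h1 | h1 | h1 | h1
    exacts [.inl h1, .inr ⟨.inl (.inl h1), hxL⟩, .inr ⟨.inl (.inr h1), hxL⟩, .inr ⟨.inr h1, hxL⟩]
  refine (measure_mono_ae hcov).trans ((measure_union_le (goodUpTo X W X' W' h A t₁ (t + 1) u)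
    ((E1 ∪ E2 ∪ E3) ∩ S)).trans (add_le_add le_rfl ?_))
  rw [Set.union_inter_distrib_right, Set.union_inter_distrib_right, add_mul, add_mul]
  exact (measure_union_le _ _).trans
    (add_le_add ((measure_union_le _ _).trans (add_le_add b1 b2)) b3)

end Vale.Agent.P147.Three
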