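import Vale.Agent.P147.Three.Defs

/-!
P147, at most one nonzero velocity in dimension at least three: the pieces after prescribed prefixes
are fresh, and the monotonicity of the meeting events under dropping prefixes.
-/

open MeasureTheory Filter Finset
open scoped ENNReal Topology

namespace Vale.Agent.P147.Three

open Vale.Agent.P147.Cond Vale.Agent.P147.Speed

variable {d : ℕ} {β : Type*} [MeasurableSpace β] [MeasurableSingletonClass β]
  {β' : Type*} [MeasurableSpace β'] [MeasurableSingletonClass β']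

/-- The two sequences of pieces after `K` and `L` pieces. -/
def drop2 (K L : ℕ) (x : (ℕ → β) × (ℕ → β')) : (ℕ → β) × (ℕ → β') := (after K x.1, after L x.2)

/-- The pairs with the same first `K` and `L` pieces as `x`. -/
def cyl (K L : ℕ) (x : (ℕ → β) × (ℕ → β')) : Set ((ℕ → β) × (ℕ → β')) :=
  begins K x.1 ×ˢ begins L x.2

theorem measurable_drop2 (K L : ℕ) :
    Measurable (drop2 K L : (ℕ → β) × (ℕ → β') → (ℕ → β) × (ℕ → β')) :=
  ((measurable_after K).comp measurable_fst).prodMk ((measurable_after L).comp measurable_snd)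

theorem measurableSet_cyl (K L : ℕ) (x : (ℕ → β) × (ℕ → β')) : MeasurableSet (cyl K L x) :=
  (measurableSet_begins K x.1).prod (measurableSet_begins L x.2)

variable [Countable β] [Countable β'] (ν : Measure β) [IsProbabilityMeasure ν] (ν' : Measure β')
  [IsProbabilityMeasure ν']

/-- Given prefixes, the later pieces have at most the original law. -/
theorem cyl_drop_le (K L : ℕ) (x : (ℕ → β) × (ℕ → β')) {A : Set ((ℕ → β) × (ℕ → β'))}
    (hA : MeasurableSet A) :
    ((iid ν).prod (iid ν')) (cyl K L x ∩ drop2 K L ⁻¹' A) ≤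
      ((iid ν).prod (iid ν')) (cyl K L x) * ((iid ν).prod (iid ν')) A := by
  by_cases h : (∀ i < K, ν {x.1 i} ≠ 0) ∧ ∀ i < L, ν' {x.2 i} ≠ 0
  · refine le_of_eq ?_
    rw [Set.inter_comm, ← Measure.restrict_apply (measurable_drop2 K L hA),
      ← Measure.map_apply (measurable_drop2 K L) hA, cyl, ← Measure.prod_restrict,
      show (drop2 K L : (ℕ → β) × (ℕ → β') → _) = Prod.map (after K) (after L) from rfl,
      ← Measure.map_prod_map _ _ (measurable_after K) (measurable_after L),
      map_after ν K x.1 h.1, map_after ν' L x.2 h.2, Measure.prod_smul_left,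
      Measure.prod_smul_right, Measure.smul_apply, Measure.smul_apply, smul_eq_mul, smul_eq_mul,
      Measure.prod_prod, mul_assoc]
  · have h0 : ((iid ν).prod (iid ν')) (cyl K L x) = 0 := by
      rw [cyl, Measure.prod_prod, iid_begins, iid_begins]
      simp only [not_and_or, not_forall, not_not] at h
      rcases h with ⟨i, hi, h⟩ | ⟨i, hi, h⟩
      · rw [prod_eq_zero (mem_range.2 hi) h, zero_mul]
      · rw [prod_eq_zero (mem_range.2 hi) h, mul_zero]
    exact (measure_mono Set.inter_subset_left).trans (by rw [h0]; exact bot_le)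

/-- An event implying, for every prefix in `S`, an event of the later pieces of probability at most
`c`. -/
theorem split_le (K L : ℕ) {E S : Set ((ℕ → β) × (ℕ → β'))} {c : ℝ≥0∞}
    (hS : ∀ x ∈ S, cyl K L x ⊆ S)
    (hc : ∀ x ∈ S, ∃ A, MeasurableSet A ∧ ((iid ν).prod (iid ν')) A ≤ c ∧
      ∀ y ∈ cyl K L x, y ∈ E → drop2 K L y ∈ A) :
    ((iid ν).prod (iid ν')) (E ∩ S) ≤ c * ((iid ν).prod (iid ν')) S := by
  classical
  set π : (ℕ → β) × (ℕ → β') → (Fin K → β) × (Fin L → β') :=
    fun x => (fun i => x.1 i, fun i => x.2 i) with hπ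
  let ι := {p : (Fin K → β) × (Fin L → β') // ∃ x ∈ S, π x = p}
  choose r hr hrp using fun p : ι => p.2
  have hmem : ∀ x y, π y = π x ↔ y ∈ cyl K L x := fun x y => by
    simp [hπ, cyl, begins, funext_iff, Fin.forall_iff]
  have hcyl : ∀ x ∈ S, ∃ p : ι, x ∈ cyl K L (r p) := fun x hx =>
    ⟨⟨π x, x, hx, rfl⟩, (hmem _ _).1 (hrp ⟨π x, x, hx, rfl⟩).symm⟩
  have hSeq : S = ⋃ p : ι, cyl K L (r p) := by
    ext x
    exact ⟨fun hx => Set.mem_iUnion.2 (hcyl x hx), fun hx => by
      obtain ⟨p, hp⟩ := Set.mem_iUnion.1 hx; exact hS _ (hr p) hp⟩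
  have hdisj : Pairwise (Function.onFun Disjoint fun p : ι => cyl K L (r p)) := fun p q hpq =>
    Set.disjoint_left.2 fun x hx hx' => hpq (Subtype.ext (by
      rw [← hrp p, ← hrp q, ← (hmem _ _).2 hx, (hmem _ _).2 hx']))
  choose A hA hAc hAE using fun p : ι => hc (r p) (hr p)
  calc ((iid ν).prod (iid ν')) (E ∩ S)
      ≤ ∑' p : ι, ((iid ν).prod (iid ν')) (cyl K L (r p) ∩ drop2 K L ⁻¹' A p) := by
        refine (measure_mono ?_).trans (measure_iUnion_le _)
        rintro x ⟨hE, hx⟩
        obtain ⟨p, hp⟩ := hcyl x hx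
        exact Set.mem_iUnion.2 ⟨p, hp, hAE p x hp hE⟩
    _ ≤ ∑' p : ι, c * ((iid ν).prod (iid ν')) (cyl K L (r p)) := by
        refine ENNReal.tsum_le_tsum fun p => (cyl_drop_le ν ν' K L (r p) (hA p)).trans ?_
        rw [mul_comm c]
        exact mul_le_mul_right (hAc p) _
    _ = c * ((iid ν).prod (iid ν')) S := by
        rw [ENNReal.tsum_mul_left, hSeq, measure_iUnion hdisj fun p => measurableSet_cyl K L (r p)]

omit [MeasurableSpace β] [MeasurableSingletonClass β] [Countable β] in
theorem start_add (X : β → Site d) (s : ℕ → β) (K q : ℕ) :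
    start X s (K + q) = start X s K + start X (after K s) q := by
  simp only [start, after, sum_range_add]

omit [MeasurableSpace β] [MeasurableSingletonClass β] [Countable β] in
theorem start_succ (X : β → Site d) (s : ℕ → β) (q : ℕ) :
    start X s (q + 1) = start X s q + X (s q) := sum_range_succ _ _

omit [MeasurableSpace β'] [MeasurableSingletonClass β'] [Countable β'] in
theorem occ_after (X' : β' → Site d) (W' : β' → Finset (Site d)) (c : ℕ → β') (L : ℕ) {z : Site d}
    (hz : z ∈ Occ X' W' (after L c)) : start X' c L + z ∈ Occ X' W' c := by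
  obtain ⟨q, w, hw, rfl⟩ := hz
  refine ⟨L + q, w, hw, ?_⟩
  show start X' c (L + q) + w = _
  rw [start_add, add_assoc]
  rfl

omit [MeasurableSpace β] [MeasurableSingletonClass β] [Countable β] [MeasurableSpace β']
  [MeasurableSingletonClass β'] [Countable β'] in
/-- Missing implies missing after dropping prefixes. -/
theorem miss_drop (X : β → Site d) (W : β → Finset (Site d)) (X' : β' → Site d)
    (W' : β' → Finset (Site d)) (K L n : ℕ) (u : Site d) {x : (ℕ → β) × (ℕ → β')}
    (hx : x ∈ miss X W X' W' (K + n) u) :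
    drop2 K L x ∈ miss X W X' W' n (u + start X' x.2 L - start X x.1 K) := by
  rintro ⟨q, -, hq, w, hw, z, hz, he⟩
  refine hx ⟨K + q, Nat.zero_le _, by omega, w, hw, _, occ_after X' W' x.2 L hz, ?_⟩
  rw [start_add, add_assoc]
  simp only [drop2] at he
  rw [he]
  abel

end Vale.Agent.P147.Three
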